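import Vale.Agent.P366.T2.Alg

/-!
# Contractions of three-index tensors

Building blocks: `S3 A b` = `A i k * b j + b i * A j k`, `X3 x C` = `x k * C i j`, and the two
contractions `T3`, `U3` occurring in the scalar curvature.
-/

open scoped BigOperators

noncomputable section
namespace Vale.Agent.P366.T2

variable {n : ℕ}

abbrev V1 (n : ℕ) := Fin n → ℝ
abbrev V2 (n : ℕ) := Fin n → Fin n → ℝ
abbrev V3 (n : ℕ) := Fin n → Fin n → Fin n → ℝ

/-- matrix times vector -/
def mv (A : V2 n) (b : V1 n) : V1 n := fun i => ∑ j, A i j * b j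

/-- transposed matrix times vector -/
def mvT (A : V2 n) (b : V1 n) : V1 n := fun i => ∑ j, A j i * b j

/-- dot product -/
def dt (a b : V1 n) : ℝ := ∑ i, a i * b i

def S3 (A : V2 n) (b : V1 n) : V3 n := fun k i j => A i k * b j + b i * A j k

def X3 (x : V1 n) (C : V2 n) : V3 n := fun k i j => x k * C i j

/-- `Gᵏˡ Kₖᵢⱼ Lₗᵢⱼ` -/
def T3 (G : V2 n) (K L : V3 n) : ℝ := ∑ k, ∑ l, G k l * ∑ i, ∑ j, K k i j * L l i j

/-- `Gᵏˡ Kₖᵢⱼ Lᵢⱼₗ` -/
def U3 (G : V2 n) (K L : V3 n) : ℝ := ∑ k, ∑ l, G k l * ∑ i, ∑ j, K k i j * L i j l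

section bilinear

variable (G : V2 n)

lemma T3_add_left (K K' L : V3 n) : T3 G (K + K') L = T3 G K L + T3 G K' L := by
  unfold T3
  simp only [Pi.add_apply, add_mul, Finset.sum_add_distrib, mul_add]

lemma T3_add_right (K L L' : V3 n) : T3 G K (L + L') = T3 G K L + T3 G K L' := by
  unfold T3
  simp only [Pi.add_apply, mul_add, Finset.sum_add_distrib]

lemma T3_smul_left (c : ℝ) (K L : V3 n) : T3 G (c • K) L = c * T3 G K L := by
  unfold T3
  simp only [Pi.smul_apply, smul_eq_mul, Finset.mul_sum]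
  refine Finset.sum_congr rfl fun k _ => Finset.sum_congr rfl fun l _ =>
    Finset.sum_congr rfl fun i _ => Finset.sum_congr rfl fun j _ => by ring

lemma T3_smul_right (c : ℝ) (K L : V3 n) : T3 G K (c • L) = c * T3 G K L := by
  unfold T3
  simp only [Pi.smul_apply, smul_eq_mul, Finset.mul_sum]
  refine Finset.sum_congr rfl fun k _ => Finset.sum_congr rfl fun l _ =>
    Finset.sum_congr rfl fun i _ => Finset.sum_congr rfl fun j _ => by ring

lemma U3_add_left (K K' L : V3 n) : U3 G (K + K') L = U3 G K L + U3 G K' L := by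
  unfold U3
  simp only [Pi.add_apply, add_mul, Finset.sum_add_distrib, mul_add]

lemma U3_add_right (K L L' : V3 n) : U3 G K (L + L') = U3 G K L + U3 G K L' := by
  unfold U3
  simp only [Pi.add_apply, mul_add, Finset.sum_add_distrib]

lemma U3_smul_left (c : ℝ) (K L : V3 n) : U3 G (c • K) L = c * U3 G K L := by
  unfold U3
  simp only [Pi.smul_apply, smul_eq_mul, Finset.mul_sum]
  refine Finset.sum_congr rfl fun k _ => Finset.sum_congr rfl fun l _ =>
    Finset.sum_congr rfl fun i _ => Finset.sum_congr rfl fun j _ => by ring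

lemma U3_smul_right (c : ℝ) (K L : V3 n) : U3 G K (c • L) = c * U3 G K L := by
  unfold U3
  simp only [Pi.smul_apply, smul_eq_mul, Finset.mul_sum]
  refine Finset.sum_congr rfl fun k _ => Finset.sum_congr rfl fun l _ =>
    Finset.sum_congr rfl fun i _ => Finset.sum_congr rfl fun j _ => by ring

/-- `T3 G` as a bilinear map. -/
def T3L : V3 n →ₗ[ℝ] V3 n →ₗ[ℝ] ℝ :=
  LinearMap.mk₂ ℝ (T3 G) (T3_add_left G) (T3_smul_left G) (T3_add_right G)
    (fun c K L => T3_smul_right G c K L)

/-- `U3 G` as a bilinear map. -/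
def U3L : V3 n →ₗ[ℝ] V3 n →ₗ[ℝ] ℝ :=
  LinearMap.mk₂ ℝ (U3 G) (U3_add_left G) (U3_smul_left G) (U3_add_right G)
    (fun c K L => U3_smul_right G c K L)

lemma T3L_apply (K L : V3 n) : T3L G K L = T3 G K L := rfl
lemma U3L_apply (K L : V3 n) : U3L G K L = U3 G K L := rfl

end bilinear

section basic

variable (G : V2 n)

/-- the pairing of matrices -/
def pr (A C : V2 n) : ℝ := ∑ i, ∑ j, A i j * C i j

/-- `Gᵏˡ (Aᵀ C)ₖₗ` -/
def trT (A C : V2 n) : ℝ := ∑ k, ∑ l, G k l * ∑ i, A i k * C i l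

/-- `Gᵏˡ (C A)ₗₖ` -/
def trU (A C : V2 n) : ℝ := ∑ k, ∑ l, G k l * ∑ i, A i k * C l i

lemma dt_mv (a b : V1 n) : ∑ k, ∑ l, G k l * (a k * b l) = dt a (mv G b) := by
  unfold dt mv
  refine Finset.sum_congr rfl fun k _ => ?_
  rw [Finset.mul_sum]
  exact Finset.sum_congr rfl fun l _ => by ring

lemma sum_eq_dt {f : Fin n → Fin n → ℝ} {a b : V1 n} (h : ∀ k l, f k l = a k * b l) :
    ∑ k, ∑ l, G k l * f k l = dt a (mv G b) := by
  rw [← dt_mv]
  exact Finset.sum_congr rfl fun k _ => Finset.sum_congr rfl fun l _ => by rw [h]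

lemma sum_add {f f1 f2 : Fin n → Fin n → ℝ} (h : ∀ k l, f k l = f1 k l + f2 k l) :
    ∑ k, ∑ l, G k l * f k l = (∑ k, ∑ l, G k l * f1 k l) + ∑ k, ∑ l, G k l * f2 k l := by
  rw [← Finset.sum_add_distrib]
  refine Finset.sum_congr rfl fun k _ => ?_
  rw [← Finset.sum_add_distrib]
  exact Finset.sum_congr rfl fun l _ => by rw [h]; ring

lemma sum_const {f f1 : Fin n → Fin n → ℝ} (c : ℝ) (h : ∀ k l, f k l = c * f1 k l) :
    ∑ k, ∑ l, G k l * f k l = c * ∑ k, ∑ l, G k l * f1 k l := by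
  rw [Finset.mul_sum]
  refine Finset.sum_congr rfl fun k _ => ?_
  rw [Finset.mul_sum]
  exact Finset.sum_congr rfl fun l _ => by rw [h]; ring

/-! inner sums -/

lemma in1 (a b c d : V1 n) :
    ∑ i, ∑ j, (a i * b j) * (c i * d j) = (∑ i, a i * c i) * dt b d := by
  unfold dt
  rw [Finset.sum_mul_sum]
  exact Finset.sum_congr rfl fun i _ => Finset.sum_congr rfl fun j _ => by ring

lemma in2 (a b c d : V1 n) :
    ∑ i, ∑ j, (a i * b j) * (c j * d i) = (∑ i, a i * d i) * dt b c := by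
  unfold dt
  rw [Finset.sum_mul_sum]
  exact Finset.sum_congr rfl fun i _ => Finset.sum_congr rfl fun j _ => by ring

lemma T3_XX (x : V1 n) (C C' : V2 n) :
    T3 G (X3 x C) (X3 x C') = dt x (mv G x) * pr C C' := by
  unfold T3 X3
  have h : ∀ k l, ∑ i, ∑ j, x k * C i j * (x l * C' i j) = pr C C' * (x k * x l) := by
    intro k l
    unfold pr
    rw [Finset.sum_mul]
    refine Finset.sum_congr rfl fun i _ => ?_
    rw [Finset.sum_mul]
    exact Finset.sum_congr rfl fun j _ => by ring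
  rw [sum_const G _ h, dt_mv]
  ring

lemma T3_XS (x : V1 n) (C : V2 n) (hC : ∀ i j, C i j = C j i) (A : V2 n) (b : V1 n) :
    T3 G (X3 x C) (S3 A b) = 2 * dt x (mv G (mvT A (mv C b))) := by
  unfold T3 X3 S3
  have h : ∀ k l, ∑ i, ∑ j, x k * C i j * (A i l * b j + b i * A j l) =
      2 * (x k * mvT A (mv C b) l) := by
    intro k l
    unfold mvT mv
    have e1 : ∑ i, ∑ j, x k * C i j * (A i l * b j + b i * A j l) =
        (∑ i, ∑ j, x k * (A i l * (C i j * b j))) + ∑ i, ∑ j, x k * (A j l * (C j i * b i)) := by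
      rw [← Finset.sum_add_distrib]
      refine Finset.sum_congr rfl fun i _ => ?_
      rw [← Finset.sum_add_distrib]
      refine Finset.sum_congr rfl fun j _ => ?_
      rw [hC j i]; ring
    have e2 : ∑ i, ∑ j, x k * (A j l * (C j i * b i)) = ∑ i, ∑ j, x k * (A i l * (C i j * b j)) :=
      Finset.sum_comm
    rw [e1, e2]
    simp only [← Finset.mul_sum]
    ring
  rw [sum_const G _ h, dt_mv]

lemma T3_SX (hG : ∀ i j, G i j = G j i) (x : V1 n) (C : V2 n) (hC : ∀ i j, C i j = C j i)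
    (A : V2 n) (b : V1 n) :
    T3 G (S3 A b) (X3 x C) = 2 * dt x (mv G (mvT A (mv C b))) := by
  rw [← T3_XS G x C hC]
  unfold T3
  rw [Finset.sum_comm]
  refine Finset.sum_congr rfl fun k _ => Finset.sum_congr rfl fun l _ => ?_
  rw [hG l k]
  congr 1
  exact Finset.sum_congr rfl fun i _ => Finset.sum_congr rfl fun j _ => by ring

lemma T3_SS (A A' : V2 n) (b b' : V1 n) :
    T3 G (S3 A b) (S3 A' b') =
      2 * (trT G A A' * dt b b') + 2 * dt (mvT A b') (mv G (mvT A' b)) := by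
  unfold T3 S3
  have h : ∀ k l, ∑ i, ∑ j, (A i k * b j + b i * A j k) * (A' i l * b' j + b' i * A' j l) =
      (2 * dt b b') * (∑ i, A i k * A' i l) + 2 * (mvT A b' k * mvT A' b l) := by
    intro k l
    have e : ∑ i, ∑ j, (A i k * b j + b i * A j k) * (A' i l * b' j + b' i * A' j l) =
        (∑ i, ∑ j, (A i k * b j) * (A' i l * b' j)) + (∑ i, ∑ j, (A i k * b j) * (A' j l * b' i)) +
        (∑ i, ∑ j, (b i * A j k) * (b' j * A' i l)) +
        ∑ i, ∑ j, (b i * A j k) * (b' i * A' j l) := by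
      rw [← Finset.sum_add_distrib, ← Finset.sum_add_distrib, ← Finset.sum_add_distrib]
      refine Finset.sum_congr rfl fun i _ => ?_
      rw [← Finset.sum_add_distrib, ← Finset.sum_add_distrib, ← Finset.sum_add_distrib]
      exact Finset.sum_congr rfl fun j _ => by ring
    rw [e, in1 (fun i => A i k) b (fun i => A' i l) b',
      in2 (fun i => A i k) b (fun j => A' j l) b',
      in2 b (fun j => A j k) b' (fun i => A' i l),
      in1 b (fun j => A j k) b' (fun j => A' j l)]
    unfold mvT dt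
    have e1 : ∑ i, b i * A' i l = ∑ j, A' j l * b j :=
      Finset.sum_congr rfl fun i _ => mul_comm _ _
    have e2 : ∑ i, b i * A' i l = ∑ i, b i * A' i l := rfl
    rw [e1]
    ring
  rw [sum_add G h, sum_const G _ (fun k l => rfl), sum_const G _ (fun k l => rfl), dt_mv]
  unfold trT
  ring

lemma U3_XX (x : V1 n) (C C' : V2 n) :
    U3 G (X3 x C) (X3 x C') = dt x (mv G (mvT C' (mvT C x))) := by
  unfold U3 X3
  have h : ∀ k l, ∑ i, ∑ j, x k * C i j * (x i * C' j l) = x k * mvT C' (mvT C x) l := by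
    intro k l
    unfold mvT
    rw [Finset.sum_comm, Finset.mul_sum]
    refine Finset.sum_congr rfl fun j _ => ?_
    rw [Finset.mul_sum, Finset.mul_sum]
    exact Finset.sum_congr rfl fun i _ => by ring
  rw [sum_eq_dt G h]

lemma U3_XS (x : V1 n) (C : V2 n) (A : V2 n) (b : V1 n) :
    U3 G (X3 x C) (S3 A b) = dt x (mv G b) * (∑ i, ∑ j, C i j * A j i) +
      dt x (mv G (mv A (mv C b))) := by
  unfold U3 X3 S3
  have h : ∀ k l, ∑ i, ∑ j, x k * C i j * (A j i * b l + b j * A l i) =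
      (∑ i, ∑ j, C i j * A j i) * (x k * b l) + x k * mv A (mv C b) l := by
    intro k l
    unfold mv
    rw [Finset.sum_mul, Finset.mul_sum, ← Finset.sum_add_distrib]
    refine Finset.sum_congr rfl fun i _ => ?_
    rw [Finset.sum_mul, Finset.mul_sum, Finset.mul_sum, ← Finset.sum_add_distrib]
    exact Finset.sum_congr rfl fun j _ => by ring
  rw [sum_add G h, sum_const G _ (fun k l => rfl), dt_mv, dt_mv]
  ring

lemma U3_SX (x : V1 n) (C : V2 n) (hC : ∀ i j, C i j = C j i) (A : V2 n) (b : V1 n) :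
    U3 G (S3 A b) (X3 x C) = dt (mvT A x) (mv G (mv C b)) +
      dt b x * (∑ k, ∑ l, G k l * ∑ j, A j k * C j l) := by
  unfold U3 X3 S3
  have h : ∀ k l, ∑ i, ∑ j, (A i k * b j + b i * A j k) * (x i * C j l) =
      mvT A x k * mv C b l + dt b x * ∑ j, A j k * C j l := by
    intro k l
    unfold mvT mv dt
    rw [Finset.sum_mul_sum, Finset.sum_mul_sum, ← Finset.sum_add_distrib]
    refine Finset.sum_congr rfl fun i _ => ?_
    rw [← Finset.sum_add_distrib]
    refine Finset.sum_congr rfl fun j _ => ?_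
    rw [hC l j]
    ring
  rw [sum_add G h, sum_const G _ (fun k l => rfl), dt_mv]

lemma U3_SS (A A' : V2 n) (b b' : V1 n) :
    U3 G (S3 A b) (S3 A' b') =
      dt (mvT A (mvT A' b)) (mv G b') + dt b b' * trU G A A' +
      dt (mvT A (mv A' b)) (mv G b') + dt (mvT A b') (mv G (mv A' b)) := by
  unfold U3 S3
  have h : ∀ k l, ∑ i, ∑ j, (A i k * b j + b i * A j k) * (A' j i * b' l + b' j * A' l i) =
      (mvT A (mvT A' b) k * b' l + (dt b b' * ∑ i, A i k * A' l i)) +
      (mvT A (mv A' b) k * b' l + mvT A b' k * mv A' b l) := by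
    intro k l
    have e : ∑ i, ∑ j, (A i k * b j + b i * A j k) * (A' j i * b' l + b' j * A' l i) =
        (∑ i, A i k * (∑ j, A' j i * b j)) * b' l + (∑ i, A i k * A' l i) * (∑ j, b j * b' j) +
        ((∑ i, ∑ j, A j k * (A' j i * b i)) * b' l +
        (∑ i, A' l i * b i) * (∑ j, A j k * b' j)) := by
      rw [Finset.sum_mul, Finset.sum_mul_sum, Finset.sum_mul_sum, Finset.sum_mul,
        ← Finset.sum_add_distrib, ← Finset.sum_add_distrib, ← Finset.sum_add_distrib]
      refine Finset.sum_congr rfl fun i _ => ?_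
      rw [Finset.mul_sum, Finset.sum_mul, Finset.sum_mul,
        ← Finset.sum_add_distrib, ← Finset.sum_add_distrib, ← Finset.sum_add_distrib]
      exact Finset.sum_congr rfl fun j _ => by ring
    rw [e]
    have e3 : ∑ i, ∑ j, A j k * (A' j i * b i) = ∑ j, A j k * ∑ i, A' j i * b i := by
      rw [Finset.sum_comm]
      exact Finset.sum_congr rfl fun j _ => by rw [Finset.mul_sum]
    rw [e3]
    unfold mvT mv dt
    ring
  rw [sum_add G h, sum_add G (fun k l => rfl), sum_add G (fun k l => rfl),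
    sum_const G _ (fun k l => rfl), dt_mv, dt_mv, dt_mv]
  unfold trU
  ring

end basic

end Vale.Agent.P366.T2
end
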