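import Vale.Agent.P366.T2.A765.SC

/-! The identity of `SC.lean` for the definitions of `Vale.Agent.P366.Stmt`. -/

open MeasureTheory Metric Filter Topology Set
open scoped BigOperators ENNReal ContDiff

noncomputable section
namespace Vale.Agent.P366.T2
open Vale.Agent.P366

variable {n : ℕ}

/-- `Lᵢ = (1/2) gᵏˡ ∂ᵢ gₖₗ` -/
def Lg (g : Stmt.Field n) (i : Fin n) (x : E n) : ℝ :=
  (1 / 2) * ∑ k, ∑ l, Stmt.up g k l x * Stmt.pd i (fun y => g y k l) x

/-- `Vᵏ = - gᵏʲ Lⱼ - ∂ⱼ gᵏʲ` -/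
def Vg (g : Stmt.Field n) (k : Fin n) (x : E n) : ℝ :=
  -∑ j, Stmt.up g k j x * Lg g j x - ∑ j, Stmt.pd j (Stmt.up g k j) x

section

variable {g : Stmt.Field n} {U : Set (E n)}

lemma smoothMetric_mat (hU : IsOpen U) (hg : ∀ i j, Stmt.Smooth (fun x => g x i j))
    (hs : ∀ x ∈ U, ∀ i j, g x i j = g x j i) (hd : ∀ x ∈ U, (Stmt.mat g x).det ≠ 0) :
    SmoothMetric (Stmt.mat g) U where
  op := hU
  sm := fun i j => (hg i j).contDiffOn
  symm := fun y hy => Matrix.IsSymm.ext fun i j => (hs y hy i j).symm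
  det := hd

/-- **Scalar curvature**: divergence form plus the contraction of first derivatives. -/
theorem scal_div (hU : IsOpen U) (hg : ∀ i j, Stmt.Smooth (fun x => g x i j))
    (hs : ∀ x ∈ U, ∀ i j, g x i j = g x j i) (hd : ∀ x ∈ U, (Stmt.mat g x).det ≠ 0)
    {x : E n} (hx : x ∈ U) :
    Stmt.scal g x = ∑ k, Stmt.pd k (Vg g k) x -
      ∑ i, ∑ j, Stmt.up g i j x * Stmt.pd j (Lg g i) x + ∑ l, Lg g l x * Vg g l x -
      (1 / 2) * ((∑ k, ∑ l, Stmt.up g k l x * ∑ i, ∑ j, Stmt.pd k (Stmt.up g i j) x *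
        Stmt.pd i (fun y => g y j l) x) -
      (1 / 2) * ∑ k, ∑ l, Stmt.up g k l x * ∑ i, ∑ j, Stmt.pd k (Stmt.up g i j) x *
        Stmt.pd l (fun y => g y i j) x) := by
  have h := smoothMetric_mat hU hg hs hd
  have hup : ∀ i j, Stmt.up g i j = fun y => (Stmt.mat g y)⁻¹ i j := fun i j => rfl
  have hpg : ∀ y i j k, Stmt.pd k (fun y => g y i j) y = pd k (fun y => Stmt.mat g y i j) y :=
    fun y i j k => Bridge.pd_eq ((hg i j).differentiable (by norm_num) y) k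
  have hpu : ∀ y ∈ U, ∀ i j k, Stmt.pd k (Stmt.up g i j) y =
      pd k (fun y => (Stmt.mat g y)⁻¹ i j) y := fun y hy i j k =>
    Bridge.pd_eq ((h.invAt hy i j).differentiableAt (by norm_num)) k
  have hL : ∀ y ∈ U, ∀ i, Lg g i y = Lc (Stmt.mat g) i y := by
    intro y hy i
    rw [h.Lc_eq hy]
    unfold Lg
    simp only [hpg]
    rfl
  have hV : ∀ y ∈ U, ∀ k, Vg g k y = Vc (Stmt.mat g) k y := by
    intro y hy k
    rw [h.Vc_eq hy]
    unfold Vg
    simp only [hL y hy, hpu y hy]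
    rfl
  have hLe : ∀ i, Lg g i =ᶠ[𝓝 x] Lc (Stmt.mat g) i := fun i => by
    filter_upwards [hU.mem_nhds hx] with y hy
    exact hL y hy i
  have hVe : ∀ k, Vg g k =ᶠ[𝓝 x] Vc (Stmt.mat g) k := fun k => by
    filter_upwards [hU.mem_nhds hx] with y hy
    exact hV y hy k
  have hpL : ∀ i j, Stmt.pd j (Lg g i) x = pd j (Lc (Stmt.mat g) i) x := by
    intro i j
    have h1 : DifferentiableAt ℝ (Lg g i) x :=
      ((h.LcAt hx i).differentiableAt (by norm_num)).congr_of_eventuallyEq (hLe i)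
    rw [Bridge.pd_eq h1, pd_congr (hLe i)]
  have hpV : ∀ k, Stmt.pd k (Vg g k) x = pd k (Vc (Stmt.mat g) k) x := by
    intro k
    have h1 : DifferentiableAt ℝ (Vg g k) x :=
      ((h.VcAt hx k).differentiableAt (by norm_num)).congr_of_eventuallyEq (hVe k)
    rw [Bridge.pd_eq h1, pd_congr (hVe k)]
  have hreg : x ∈ Bridge.Reg g := hd x hx
  rw [Bridge.scal_eq hg hreg, h.scal_eq hx, h.quad_eq hx]
  simp only [hpL, hpV, hL x hx, hV x hx, hpg, hpu x hx]
  rfl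

end

end Vale.Agent.P366.T2
end
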