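import Vale.Agent.P366.T2.A765.LV
import Vale.Agent.P366.T2.A765.SCStmt

/-!
# Derivatives of the coefficient functions
-/

open MeasureTheory Metric Filter Topology Set
open scoped BigOperators ContDiff ENNReal

noncomputable section
namespace Vale.Agent.P366.T2
open Vale.Agent.P366.Stmt

variable {n : ℕ}

lemma contDiffAt_det_real {m : ℕ} {x : ℝ} {A : ℝ → Matrix (Fin m) (Fin m) ℝ}
    (hA : ∀ i j, ContDiffAt ℝ ∞ (fun y => A y i j) x) :
    ContDiffAt ℝ ∞ (fun y => (A y).det) x := by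
  simp only [Matrix.det_apply']
  refine ContDiffAt.sum fun σ _ => ?_
  exact contDiffAt_const.mul (contDiffAt_prod fun i _ => hA _ _)

lemma contDiffAt_inv_entry_real {m : ℕ} {x : ℝ} {A : ℝ → Matrix (Fin m) (Fin m) ℝ}
    (hA : ∀ i j, ContDiffAt ℝ ∞ (fun y => A y i j) x) (hd : (A x).det ≠ 0) (i j : Fin m) :
    ContDiffAt ℝ ∞ (fun y => (A y)⁻¹ i j) x := by
  have h1 : (fun y => (A y)⁻¹ i j) = fun y => (A y).det⁻¹ * (A y).adjugate i j := by
    funext y
    rw [Matrix.inv_def, Matrix.smul_apply, smul_eq_mul, Ring.inverse_eq_inv']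
  rw [h1]
  refine ((contDiffAt_det_real hA).inv hd).mul ?_
  have h2 : (fun y => (A y).adjugate i j) =
      fun y => ((A y).updateRow j (Pi.single i 1)).det := by
    funext y
    rw [Matrix.adjugate_apply]
  rw [h2]
  refine contDiffAt_det_real fun a b => ?_
  by_cases ha : a = j
  · subst ha
    simp only [Matrix.updateRow_self]
    exact contDiffAt_const
  · simp only [Matrix.updateRow_ne ha]
    exact hA a b

namespace Data

variable (D : Data n)

/-- derivative of the fibre matrix -/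
def dq (r : ℝ) : Matrix (Fin 3) (Fin 3) ℝ := Matrix.of fun a b => deriv (D.q a b) r

lemma al_der (r : ℝ) : HasDerivAt D.al (deriv D.al r) r :=
  (D.al_smooth.differentiable (by norm_num) r).hasDerivAt

lemma p_der (r : ℝ) : HasDerivAt D.p (deriv D.p r) r :=
  (D.p_smooth.differentiable (by norm_num) r).hasDerivAt

lemma q_der (a b : Fin 3) (r : ℝ) : HasDerivAt (D.q a b) (D.dq r a b) r :=
  ((D.q_smooth a b).differentiable (by norm_num) r).hasDerivAt

lemma dq_symm (r : ℝ) (a b : Fin 3) : D.dq r a b = D.dq r b a := by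
  have : D.q a b = D.q b a := D.q_symm a b
  simp [dq, this]

lemma q_symm' (a b : Fin 3) (r : ℝ) : D.q a b r = D.q b a r := by
  rw [D.q_symm a b]

lemma iq_smooth {r : ℝ} (hr : D.R ≤ r) (a b : Fin 3) :
    ContDiffAt ℝ ∞ (fun t => D.iq t a b) r :=
  contDiffAt_inv_entry_real (A := D.qm) (fun i j => (D.q_smooth i j).contDiffAt)
    (D.qm_det_ne hr) a b

lemma iq_q {r : ℝ} (hr : D.R ≤ r) (a c : Fin 3) :
    ∑ b, D.iq r a b * D.q b c r = if a = c then 1 else 0 := by
  have := congrFun (congrFun (D.iq_mul_qm hr) a) c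
  rw [Matrix.mul_apply, Matrix.one_apply] at this
  exact this

/-- derivative of the inverse fibre matrix -/
def diq (r : ℝ) (a b : Fin 3) : ℝ := -∑ c, ∑ d, D.iq r a c * D.dq r c d * D.iq r d b

lemma iq_der {r : ℝ} (hr : D.R < r) (a b : Fin 3) :
    HasDerivAt (fun t => D.iq t a b) (D.diq r a b) r := by
  have hd : ∀ a b, HasDerivAt (fun t => D.iq t a b) (deriv (fun t => D.iq t a b) r) r :=
    fun a b => ((D.iq_smooth hr.le a b).differentiableAt (by norm_num)).hasDerivAt
  have h1 : ∀ c, ∑ d, (D.dq r c d * D.iq r d b + D.q c d r * deriv (fun t => D.iq t d b) r) = 0 := by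
    intro c
    have h2 : HasDerivAt (fun t => ∑ d, D.q c d t * D.iq t d b)
        (∑ d, (D.dq r c d * D.iq r d b + D.q c d r * deriv (fun t => D.iq t d b) r)) r :=
      HasDerivAt.fun_sum fun d _ => (D.q_der c d r).mul (hd d b)
    have h3 : (fun t => ∑ d, D.q c d t * D.iq t d b) =ᶠ[𝓝 r] fun _ => if c = b then 1 else 0 := by
      filter_upwards [Ioi_mem_nhds hr] with t ht
      exact D.q_iq (le_of_lt ht) c b
    exact h2.unique ((hasDerivAt_const r _).congr_of_eventuallyEq h3)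
  have h4 : ∑ c, D.iq r a c * ∑ d, (D.dq r c d * D.iq r d b +
      D.q c d r * deriv (fun t => D.iq t d b) r) = 0 := by
    simp only [h1, mul_zero, Finset.sum_const_zero]
  have h5 : ∑ c, D.iq r a c * ∑ d, (D.dq r c d * D.iq r d b +
      D.q c d r * deriv (fun t => D.iq t d b) r) =
      (∑ c, ∑ d, D.iq r a c * D.dq r c d * D.iq r d b) +
      ∑ d, (∑ c, D.iq r a c * D.q c d r) * deriv (fun t => D.iq t d b) r := by
    simp only [mul_add, Finset.sum_add_distrib, Finset.mul_sum, Finset.sum_mul]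
    congr 1
    · exact Finset.sum_congr rfl fun c _ => Finset.sum_congr rfl fun d _ => by ring
    · rw [Finset.sum_comm]
      exact Finset.sum_congr rfl fun c _ => Finset.sum_congr rfl fun d _ => by ring
  rw [h5] at h4
  simp only [D.iq_q hr.le, ite_mul, one_mul, zero_mul, Finset.sum_ite_eq, Finset.mem_univ,
    if_true] at h4
  have h6 : deriv (fun t => D.iq t a b) r = D.diq r a b := by
    unfold diq; linarith
  rw [← h6]
  exact hd a b

/-! coefficient functions in the form of `tt` -/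

def u1 (r : ℝ) : ℝ := (D.p r - D.al r) / r ^ 2
def s1 (a b : Fin 3) (r : ℝ) : ℝ := (D.q a b r - (if a = b then D.al r else 0)) / r ^ 2
def f2 (r : ℝ) : ℝ := 1 / D.al r
def u2 (r : ℝ) : ℝ := (1 / D.p r - 1 / D.al r) / r ^ 2
def s2 (a b : Fin 3) (r : ℝ) : ℝ := (D.iq r a b - (if a = b then 1 / D.al r else 0)) / r ^ 2

def du1 (r : ℝ) : ℝ :=
  ((deriv D.p r - deriv D.al r) * r ^ 2 - (D.p r - D.al r) * (2 * r)) / (r ^ 2) ^ 2
def ds1 (r : ℝ) (a b : Fin 3) : ℝ :=
  ((D.dq r a b - (if a = b then deriv D.al r else 0)) * r ^ 2 -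
    (D.q a b r - (if a = b then D.al r else 0)) * (2 * r)) / (r ^ 2) ^ 2
def df2 (r : ℝ) : ℝ := -deriv D.al r / D.al r ^ 2
def dp2 (r : ℝ) : ℝ := -deriv D.p r / D.p r ^ 2
def du2 (r : ℝ) : ℝ :=
  ((D.dp2 r - D.df2 r) * r ^ 2 - (1 / D.p r - 1 / D.al r) * (2 * r)) / (r ^ 2) ^ 2
def ds2 (r : ℝ) (a b : Fin 3) : ℝ :=
  ((D.diq r a b - (if a = b then D.df2 r else 0)) * r ^ 2 -
    (D.iq r a b - (if a = b then 1 / D.al r else 0)) * (2 * r)) / (r ^ 2) ^ 2

lemma sq_der (r : ℝ) : HasDerivAt (fun t : ℝ => t ^ 2) (2 * r) r := by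
  simpa using hasDerivAt_pow 2 r

lemma u1_der {r : ℝ} (hr : 0 < r) : HasDerivAt D.u1 (D.du1 r) r :=
  ((D.p_der r).sub (D.al_der r)).div (sq_der r) (pow_ne_zero 2 hr.ne')

lemma s1_der {r : ℝ} (hr : 0 < r) (a b : Fin 3) : HasDerivAt (D.s1 a b) (D.ds1 r a b) r := by
  have h : HasDerivAt (fun t => if a = b then D.al t else 0) (if a = b then deriv D.al r else 0) r := by
    split_ifs
    · exact D.al_der r
    · exact hasDerivAt_const _ _
  exact ((D.q_der a b r).sub h).div (sq_der r) (pow_ne_zero 2 hr.ne')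

lemma f2_der {r : ℝ} (hr : D.R ≤ r) : HasDerivAt D.f2 (D.df2 r) r := by
  have := (D.al_der r).inv (D.al_pos r hr).ne'
  have e : D.f2 = D.al⁻¹ := by funext t; simp [f2]
  rw [e]
  exact this

lemma p2_der {r : ℝ} (hr : D.R ≤ r) : HasDerivAt (fun t => 1 / D.p t) (D.dp2 r) r := by
  have := (D.p_der r).inv (D.p_pos r hr).ne'
  have e : (fun t => 1 / D.p t) = D.p⁻¹ := by funext t; simp
  rw [e]
  exact this

lemma u2_der {r : ℝ} (hr : D.R ≤ r) : HasDerivAt D.u2 (D.du2 r) r :=
  ((D.p2_der hr).sub (D.f2_der hr)).div (sq_der r) (pow_ne_zero 2 (D.hR.trans_le hr).ne')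

lemma s2_der {r : ℝ} (hr : D.R < r) (a b : Fin 3) : HasDerivAt (D.s2 a b) (D.ds2 r a b) r := by
  have h : HasDerivAt (fun t => if a = b then 1 / D.al t else 0) (if a = b then D.df2 r else 0) r := by
    split_ifs
    · exact D.f2_der hr.le
    · exact hasDerivAt_const _ _
  exact ((D.iq_der hr a b).sub h).div (sq_der r) (pow_ne_zero 2 (D.hR.trans hr).ne')

lemma s1_symm (a b : Fin 3) : D.s1 a b = D.s1 b a := by
  funext r
  simp only [s1, D.q_symm' a b, eq_comm (a := a) (b := b)]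

lemma s2_symm (a b : Fin 3) : D.s2 a b = D.s2 b a := by
  funext r
  simp only [s2, D.iq_symm_apply r a b, eq_comm (a := a) (b := b)]

lemma ds1_symm (r : ℝ) (a b : Fin 3) : D.ds1 r a b = D.ds1 r b a := by
  simp only [ds1, D.q_symm' a b, D.dq_symm r a b, eq_comm (a := a) (b := b)]

lemma diq_symm (r : ℝ) (a b : Fin 3) : D.diq r a b = D.diq r b a := by
  unfold diq
  congr 1
  rw [Finset.sum_comm]
  refine Finset.sum_congr rfl fun c _ => Finset.sum_congr rfl fun d _ => ?_
  rw [D.iq_symm_apply r a d, D.iq_symm_apply r c b, D.dq_symm r d c]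
  ring

lemma ds2_symm (r : ℝ) (a b : Fin 3) : D.ds2 r a b = D.ds2 r b a := by
  simp only [ds2, D.iq_symm_apply r a b, D.diq_symm r a b, eq_comm (a := a) (b := b)]

end Data

end Vale.Agent.P366.T2
end
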