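import Vale.Agent.P366.T2.A765.Contr

/-!
# The two contractions for quaternionic tensors
-/

open scoped BigOperators

noncomputable section
namespace Vale.Agent.P366.T2
open Vale.Agent.P366.Stmt

variable {n : ℕ} (Q : Quat n) (x : E n)

def xv (x : E n) : V1 n := fun i => x i
def Yv (a : Fin 3) : V1 n := Q.Y a x
def Jm (a : Fin 3) : V2 n := fun i j => Q.J a i j
def dl : V2 n := fun i j => if i = j then 1 else 0

/-- `v ↦ w ↦ v · G w` -/
def GB (G : V2 n) : V1 n →ₗ[ℝ] V1 n →ₗ[ℝ] ℝ :=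
  LinearMap.mk₂ ℝ (fun v w => dt v (mv G w))
    (fun a b c => by simp only [dt, Pi.add_apply, add_mul, Finset.sum_add_distrib])
    (fun c a b => by
      simp only [dt, Pi.smul_apply, smul_eq_mul, Finset.mul_sum]
      exact Finset.sum_congr rfl fun i _ => by ring)
    (fun a b c => by
      simp only [dt, mv, Pi.add_apply, mul_add, Finset.sum_add_distrib])
    (fun c a b => by
      simp only [dt, mv, Pi.smul_apply, smul_eq_mul, Finset.mul_sum]
      exact Finset.sum_congr rfl fun i _ => Finset.sum_congr rfl fun j _ => by ring)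

lemma GB_apply (G : V2 n) (v w : V1 n) : GB G v w = dt v (mv G w) := rfl

lemma mv_dl (v : V1 n) : mv dl v = v := by
  funext i; simp [mv, dl]

lemma mvT_dl (v : V1 n) : mvT dl v = v := by
  funext i; simp [mvT, dl]

lemma mv_J_x (a : Fin 3) : mv (Jm Q a) (xv x) = Yv Q x a := rfl

lemma mvT_J_x (a : Fin 3) : mvT (Jm Q a) (xv x) = -Yv Q x a := by
  funext i; exact Q.JT_x a x i

lemma mvT_J_Y (a b : Fin 3) : mvT (Jm Q a) (Yv Q x b) =
    (if a = b then (1 : ℝ) else 0) • xv x - ∑ c, eps a b c • Yv Q x c := by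
  funext i
  have := Q.JT_Y a b x i
  simp only [mvT, Jm, Yv, xv, Pi.sub_apply, Pi.smul_apply, Finset.sum_apply, smul_eq_mul]
  rw [this]
  split_ifs <;> simp

lemma mv_J_Y (a b : Fin 3) : mv (Jm Q a) (Yv Q x b) = -mvT (Jm Q a) (Yv Q x b) := by
  funext i
  simp only [mv, mvT, Jm, Pi.neg_apply, ← Finset.sum_neg_distrib]
  exact Finset.sum_congr rfl fun j _ => by rw [Q.skew_apply a i j]; ring

lemma mv_neg (G : V2 n) (v : V1 n) : mv G (-v) = -mv G v := by
  funext i; simp [mv, Finset.sum_neg_distrib]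

lemma mvT_neg (G : V2 n) (v : V1 n) : mvT G (-v) = -mvT G v := by
  funext i; simp [mvT, Finset.sum_neg_distrib]

lemma mv_smul (G : V2 n) (c : ℝ) (v : V1 n) : mv G (c • v) = c • mv G v := by
  funext i
  simp only [mv, Pi.smul_apply, smul_eq_mul, Finset.mul_sum]
  exact Finset.sum_congr rfl fun j _ => by ring

lemma mvT_smul (G : V2 n) (c : ℝ) (v : V1 n) : mvT G (c • v) = c • mvT G v := by
  funext i
  simp only [mvT, Pi.smul_apply, smul_eq_mul, Finset.mul_sum]
  exact Finset.sum_congr rfl fun j _ => by ring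

lemma mv_sum {ι : Type*} (G : V2 n) (s : Finset ι) (f : ι → V1 n) :
    mv G (∑ a ∈ s, f a) = ∑ a ∈ s, mv G (f a) := by
  funext i
  simp only [mv, Finset.sum_apply, Finset.mul_sum]
  rw [Finset.sum_comm]

lemma mvT_sum {ι : Type*} (G : V2 n) (s : Finset ι) (f : ι → V1 n) :
    mvT G (∑ a ∈ s, f a) = ∑ a ∈ s, mvT G (f a) := by
  funext i
  simp only [mvT, Finset.sum_apply, Finset.mul_sum]
  rw [Finset.sum_comm]

lemma dt_xx : dt (xv x) (xv x) = len x ^ 2 := Quat.sum_sq x

lemma dt_xY (a : Fin 3) : dt (xv x) (Yv Q x a) = 0 := Q.x_Y a x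

lemma dt_Yx (a : Fin 3) : dt (Yv Q x a) (xv x) = 0 := Q.Y_x a x

lemma dt_YY (a b : Fin 3) : dt (Yv Q x a) (Yv Q x b) = if a = b then len x ^ 2 else 0 :=
  Q.Y_Y a b x

/-- A symmetric matrix acting on `x` and `J_a x` by `ν` and the `3 × 3` matrix `t`. -/
structure Adm (G : V2 n) (ν : ℝ) (t : Fin 3 → Fin 3 → ℝ) : Prop where
  symm : ∀ i j, G i j = G j i
  hx : mv G (xv x) = ν • xv x
  hY : ∀ c, mv G (Yv Q x c) = ∑ a, t a c • Yv Q x a

namespace Adm

variable {Q x} {G : V2 n} {ν : ℝ} {t : Fin 3 → Fin 3 → ℝ} (h : Adm Q x G ν t)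
include h

lemma xGx : dt (xv x) (mv G (xv x)) = ν * len x ^ 2 := by
  rw [h.hx]
  have : dt (xv x) (ν • xv x) = ν * dt (xv x) (xv x) := by
    simp only [dt, Pi.smul_apply, smul_eq_mul, Finset.mul_sum]
    exact Finset.sum_congr rfl fun i _ => by ring
  rw [this, dt_xx]

lemma YGx (a : Fin 3) : dt (Yv Q x a) (mv G (xv x)) = 0 := by
  rw [h.hx]
  have : dt (Yv Q x a) (ν • xv x) = ν * dt (Yv Q x a) (xv x) := by
    simp only [dt, Pi.smul_apply, smul_eq_mul, Finset.mul_sum]
    exact Finset.sum_congr rfl fun i _ => by ring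
  rw [this, dt_Yx, mul_zero]

lemma dt_sum (v : V1 n) (c : Fin 3) : dt v (mv G (Yv Q x c)) = ∑ a, t a c * dt v (Yv Q x a) := by
  rw [h.hY]
  simp only [dt, Finset.sum_apply, Pi.smul_apply, smul_eq_mul, Finset.mul_sum]
  rw [Finset.sum_comm]
  exact Finset.sum_congr rfl fun i _ => Finset.sum_congr rfl fun j _ => by ring

lemma xGY (a : Fin 3) : dt (xv x) (mv G (Yv Q x a)) = 0 := by
  rw [h.dt_sum]
  simp [dt_xY]

lemma YGY (a b : Fin 3) : dt (Yv Q x a) (mv G (Yv Q x b)) = t a b * len x ^ 2 := by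
  rw [h.dt_sum]
  simp [dt_YY]

lemma t_symm (hr : len x ≠ 0) (a b : Fin 3) : t a b = t b a := by
  have h1 : dt (Yv Q x a) (mv G (Yv Q x b)) = dt (Yv Q x b) (mv G (Yv Q x a)) := by
    unfold dt mv
    simp only [Finset.mul_sum]
    rw [Finset.sum_comm]
    exact Finset.sum_congr rfl fun i _ => Finset.sum_congr rfl fun j _ => by
      rw [h.symm j i]; ring
  rw [h.YGY, h.YGY] at h1
  exact mul_right_cancel₀ (pow_ne_zero 2 hr) h1

/-- traces with `J` -/
lemma trJ (a : Fin 3) : ∑ k, ∑ l, G k l * Q.J a k l = 0 := by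
  have h1 : ∑ k, ∑ l, G k l * Q.J a k l = -∑ k, ∑ l, G k l * Q.J a k l := by
    conv_lhs => rw [Finset.sum_comm]
    rw [← Finset.sum_neg_distrib]
    refine Finset.sum_congr rfl fun k _ => ?_
    rw [← Finset.sum_neg_distrib]
    refine Finset.sum_congr rfl fun l _ => ?_
    rw [h.symm l k, Q.skew_apply a k l]; ring
  linarith

lemma trJ' (a : Fin 3) : ∑ k, ∑ l, G k l * Q.J a l k = 0 := by
  have h1 : ∑ k, ∑ l, G k l * Q.J a l k = -∑ k, ∑ l, G k l * Q.J a k l := by
    rw [← Finset.sum_neg_distrib]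
    refine Finset.sum_congr rfl fun k _ => ?_
    rw [← Finset.sum_neg_distrib]
    refine Finset.sum_congr rfl fun l _ => ?_
    rw [Q.skew_apply a k l]; ring
  rw [h1, h.trJ, neg_zero]

omit h in
lemma trT_dd : trT G dl dl = ∑ k, G k k := by
  unfold trT dl
  simp

lemma trT_dJ (c : Fin 3) : trT G dl (Jm Q c) = 0 := by
  unfold trT dl Jm
  have : ∀ k l : Fin n, ∑ i, (if i = k then (1 : ℝ) else 0) * Q.J c i l = Q.J c k l := by
    intro k l; simp
  simp only [this]
  exact h.trJ c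

lemma trT_Jd (c : Fin 3) : trT G (Jm Q c) dl = 0 := by
  unfold trT dl Jm
  have : ∀ k l : Fin n, ∑ i, Q.J c i k * (if i = l then (1 : ℝ) else 0) = Q.J c l k := by
    intro k l; simp
  simp only [this]
  exact h.trJ' c

omit h in
lemma trU_dd : trU G dl dl = ∑ k, G k k := by
  unfold trU dl
  simp

lemma trU_dJ (c : Fin 3) : trU G dl (Jm Q c) = 0 := by
  unfold trU dl Jm
  have : ∀ k l : Fin n, ∑ i, (if i = k then (1 : ℝ) else 0) * Q.J c l i = Q.J c l k := by
    intro k l; simp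
  simp only [this]
  exact h.trJ' c

lemma trU_Jd (c : Fin 3) : trU G (Jm Q c) dl = 0 := by
  unfold trU dl Jm
  have : ∀ k l : Fin n, ∑ i, Q.J c i k * (if l = i then (1 : ℝ) else 0) = Q.J c l k := by
    intro k l; simp
  simp only [this]
  exact h.trJ' c

lemma trU_JJ (a c : Fin 3) : trU G (Jm Q a) (Jm Q c) = if a = c then -∑ k, G k k else 0 := by
  unfold trU Jm
  have e : ∀ k l : Fin n, ∑ i, Q.J a i k * Q.J c l i =
      (if c = a then (if l = k then -1 else 0) else 0) + ∑ e, eps c a e * Q.J e l k := by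
    intro k l
    rw [← Q.J_mul_apply c a l k]
    exact Finset.sum_congr rfl fun i _ => mul_comm _ _
  have e2 : ∑ k, ∑ l, G k l * ∑ i, Q.J a i k * Q.J c l i =
      (∑ k, ∑ l, G k l * (if c = a then (if l = k then -1 else 0) else 0)) +
      ∑ e, eps c a e * ∑ k, ∑ l, G k l * Q.J e l k := by
    simp only [e, mul_add, Finset.sum_add_distrib]
    congr 1
    simp only [Finset.mul_sum]
    calc ∑ k, ∑ l, ∑ e, G k l * (eps c a e * Q.J e l k)
        = ∑ k, ∑ e, ∑ l, G k l * (eps c a e * Q.J e l k) :=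
          Finset.sum_congr rfl fun k _ => Finset.sum_comm
      _ = ∑ e, ∑ k, ∑ l, G k l * (eps c a e * Q.J e l k) := Finset.sum_comm
      _ = _ := Finset.sum_congr rfl fun e _ => Finset.sum_congr rfl fun k _ =>
          Finset.sum_congr rfl fun l _ => by ring
  rw [e2]
  simp only [h.trJ', mul_zero, Finset.sum_const_zero, add_zero]
  by_cases hac : a = c
  · subst hac
    simp [← Finset.sum_neg_distrib]
  · simp [hac, Ne.symm hac]

lemma trT_JJ (a c : Fin 3) : trT G (Jm Q a) (Jm Q c) = if a = c then ∑ k, G k k else 0 := by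
  have e : trT G (Jm Q a) (Jm Q c) = -trU G (Jm Q a) (Jm Q c) := by
    unfold trT trU Jm
    rw [← Finset.sum_neg_distrib]
    refine Finset.sum_congr rfl fun k _ => ?_
    rw [← Finset.sum_neg_distrib]
    refine Finset.sum_congr rfl fun l _ => ?_
    rw [← mul_neg, ← Finset.sum_neg_distrib]
    congr 1
    exact Finset.sum_congr rfl fun i _ => by rw [Q.skew_apply c l i]; ring
  rw [e, h.trU_JJ]
  split_ifs <;> simp

/-- the basic `J`-pairing -/
lemma JJ (a b c d : Fin 3) :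
    dt (mvT (Jm Q a) (Yv Q x d)) (mv G (mvT (Jm Q c) (Yv Q x b))) =
      (if a = d then 1 else 0) * (if c = b then 1 else 0) * (ν * len x ^ 2) +
      (∑ e, ∑ f, eps a d e * eps c b f * t e f) * len x ^ 2 := by
  rw [mvT_J_Y, mvT_J_Y, ← GB_apply]
  simp only [map_sub, map_smul, map_sum, LinearMap.sub_apply, LinearMap.smul_apply,
    LinearMap.sum_apply, smul_eq_mul]
  simp only [GB_apply, h.xGx, h.YGx, h.xGY, h.YGY, mul_zero, Finset.sum_const_zero, sub_zero,
    zero_sub]
  simp only [Fin.sum_univ_three]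
  ring

end Adm

end Vale.Agent.P366.T2
end
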