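import Vale.Agent.P366.T2.A765.Eval

/-!
# The two contractions for quaternionic tensors: values
-/

open scoped BigOperators

noncomputable section
namespace Vale.Agent.P366.T2
open Vale.Agent.P366.Stmt

variable {n : ℕ} (Q : Quat n) (x : E n)

/-- The derivative tensor of an invariant tensor. -/
def D3 (C : V2 n) (u : ℝ) (s : Fin 3 → Fin 3 → ℝ) : V3 n :=
  X3 (xv x) C + u • S3 dl (xv x) + ∑ a, ∑ b, s a b • S3 (Jm Q a) (Yv Q x b)

lemma mvT_eq_mv {C : V2 n} (h : ∀ i j, C i j = C j i) (v : V1 n) : mvT C v = mv C v := by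
  funext i
  exact Finset.sum_congr rfl fun j _ => by rw [h j i]

section vals

variable {Q x}
variable {G C C' : V2 n} {ν c c' : ℝ} {t tc tc' : Fin 3 → Fin 3 → ℝ}
  (hG : Adm Q x G ν t) (hC : Adm Q x C c tc) (hC' : Adm Q x C' c' tc')

include hG hC in
lemma xGJTCY (a b : Fin 3) :
    dt (xv x) (mv G (mvT (Jm Q a) (mv C (Yv Q x b)))) = ν * len x ^ 2 * tc a b := by
  rw [hC.hY, mvT_sum]
  simp only [mvT_smul, mvT_J_Y]
  rw [← GB_apply]
  simp only [map_sub, map_smul, map_sum, smul_eq_mul]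
  simp only [GB_apply, hG.xGx, hG.xGY, mul_zero, Finset.sum_const_zero, sub_zero]
  fin_cases a <;> simp <;> ring

include hG in
lemma JTY_Gx (a b : Fin 3) :
    dt (mvT (Jm Q a) (Yv Q x b)) (mv G (xv x)) = if a = b then ν * len x ^ 2 else 0 := by
  rw [mvT_J_Y, ← GB_apply]
  simp only [map_sub, map_smul, map_sum, LinearMap.sub_apply, LinearMap.smul_apply,
    LinearMap.sum_apply, smul_eq_mul]
  simp only [GB_apply, hG.xGx, hG.YGx, mul_zero, Finset.sum_const_zero, sub_zero]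
  split_ifs <;> simp

include hG hC in
lemma YGCY (a b : Fin 3) :
    dt (Yv Q x a) (mv G (mv C (Yv Q x b))) = len x ^ 2 * ∑ e, t a e * tc e b := by
  rw [hC.hY, ← GB_apply]
  simp only [map_smul, map_sum, smul_eq_mul]
  simp only [GB_apply, hG.YGY, Finset.mul_sum]
  exact Finset.sum_congr rfl fun e _ => by ring

lemma dt_neg_left (v w : V1 n) : dt (-v) w = -dt v w := by
  simp [dt, Finset.sum_neg_distrib]

lemma dt_neg_right (v w : V1 n) : dt v (-w) = -dt v w := by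
  simp [dt, Finset.sum_neg_distrib]

include hG hC hC' in
theorem T3_D3 (u u' : ℝ) (s s' : Fin 3 → Fin 3 → ℝ) :
    T3 G (D3 Q x C' u' s') (D3 Q x C u s) =
      ν * len x ^ 2 * pr C' C + u * (2 * (c' * (ν * len x ^ 2))) +
      (∑ a, ∑ b, s a b * (2 * (ν * len x ^ 2 * tc' a b))) +
      u' * (2 * (c * (ν * len x ^ 2))) +
      u' * (u * (2 * ((∑ k, G k k) * len x ^ 2) + 2 * (ν * len x ^ 2))) +
      u' * (∑ a, ∑ b, s a b * (-(2 * (t b a * len x ^ 2)))) +
      (∑ a, ∑ b, s' a b * (2 * (ν * len x ^ 2 * tc a b))) +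
      (∑ a, ∑ b, s' a b * (u * (-(2 * (t a b * len x ^ 2))))) +
      ∑ d, ∑ e, s d e * ∑ a, ∑ b, s' a b *
        (2 * ((if a = d then ∑ k, G k k else 0) * (if b = e then len x ^ 2 else 0)) +
        2 * ((if a = e then 1 else 0) * (if d = b then 1 else 0) * (ν * len x ^ 2) +
          (∑ f, ∑ h, eps a e f * eps d b h * t f h) * len x ^ 2)) := by
  rw [← T3L_apply]
  unfold D3
  simp only [map_add, map_smul, map_sum, LinearMap.add_apply, LinearMap.smul_apply,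
    LinearMap.sum_apply, smul_eq_mul]
  simp only [T3L_apply]
  have e1 : T3 G (X3 (xv x) C') (X3 (xv x) C) = ν * len x ^ 2 * pr C' C := by
    rw [T3_XX, hG.xGx]
  have e2 : T3 G (X3 (xv x) C') (S3 dl (xv x)) = 2 * (c' * (ν * len x ^ 2)) := by
    rw [T3_XS G _ _ hC'.symm, mvT_dl, hC'.hx, mv_smul, ← hG.xGx]
    simp only [dt, Pi.smul_apply, smul_eq_mul, Finset.mul_sum]
    exact Finset.sum_congr rfl fun i _ => by ring
  have e3 : ∀ a b, T3 G (X3 (xv x) C') (S3 (Jm Q a) (Yv Q x b)) =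
      2 * (ν * len x ^ 2 * tc' a b) := by
    intro a b
    rw [T3_XS G _ _ hC'.symm, xGJTCY hG hC']
  have e4 : T3 G (S3 dl (xv x)) (X3 (xv x) C) = 2 * (c * (ν * len x ^ 2)) := by
    rw [T3_SX G hG.symm _ _ hC.symm, mvT_dl, hC.hx, mv_smul, ← hG.xGx]
    simp only [dt, Pi.smul_apply, smul_eq_mul, Finset.mul_sum]
    exact Finset.sum_congr rfl fun i _ => by ring
  have e5 : T3 G (S3 dl (xv x)) (S3 dl (xv x)) =
      2 * ((∑ k, G k k) * len x ^ 2) + 2 * (ν * len x ^ 2) := by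
    rw [T3_SS, Adm.trT_dd, mvT_dl, hG.xGx, dt_xx]
  have e6 : ∀ a b, T3 G (S3 dl (xv x)) (S3 (Jm Q a) (Yv Q x b)) =
      -(2 * (t b a * len x ^ 2)) := by
    intro a b
    rw [T3_SS, dt_xY, mvT_dl, mvT_J_x, mv_neg, dt_neg_right, hG.YGY]
    ring
  have e7 : ∀ a b, T3 G (S3 (Jm Q a) (Yv Q x b)) (X3 (xv x) C) =
      2 * (ν * len x ^ 2 * tc a b) := by
    intro a b
    rw [T3_SX G hG.symm _ _ hC.symm, xGJTCY hG hC]
  have e8 : ∀ a b, T3 G (S3 (Jm Q a) (Yv Q x b)) (S3 dl (xv x)) =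
      -(2 * (t a b * len x ^ 2)) := by
    intro a b
    rw [T3_SS, dt_Yx, mvT_dl, mvT_J_x, dt_neg_left, hG.YGY]
    ring
  have e9 : ∀ a b d e, T3 G (S3 (Jm Q a) (Yv Q x b)) (S3 (Jm Q d) (Yv Q x e)) =
      2 * ((if a = d then ∑ k, G k k else 0) * (if b = e then len x ^ 2 else 0)) +
        2 * ((if a = e then 1 else 0) * (if d = b then 1 else 0) * (ν * len x ^ 2) +
          (∑ f, ∑ h, eps a e f * eps d b h * t f h) * len x ^ 2) := by
    intro a b d e
    rw [T3_SS, hG.trT_JJ, dt_YY, hG.JJ]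
  simp only [e1, e2, e3, e4, e5, e6, e7, e8, e9]
  simp only [mul_add, Finset.sum_add_distrib, Finset.mul_sum]
  ring_nf

include hG hC hC' in
theorem U3_D3 (u u' : ℝ) (s s' : Fin 3 → Fin 3 → ℝ) :
    U3 G (D3 Q x C' u' s') (D3 Q x C u s) =
      c' * c * (ν * len x ^ 2) +
      u * (ν * len x ^ 2 * (∑ i, C' i i) + c' * (ν * len x ^ 2)) +
      (∑ a, ∑ b, s a b * (-(ν * len x ^ 2 * tc' a b))) +
      u' * (c * (ν * len x ^ 2) + len x ^ 2 * pr G C) +
      u' * (u * (3 * (ν * len x ^ 2) + len x ^ 2 * ∑ k, G k k)) +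
      u' * (∑ a, ∑ b, s a b * (t b a * len x ^ 2)) +
      (∑ a, ∑ b, s' a b * (-(len x ^ 2 * ∑ e, t a e * tc e b))) +
      (∑ a, ∑ b, s' a b * (u * (2 * (if a = b then ν * len x ^ 2 else 0) -
        t a b * len x ^ 2))) +
      ∑ d, ∑ e, s d e * ∑ a, ∑ b, s' a b *
        ((if b = e then len x ^ 2 else 0) * (if a = d then -∑ k, G k k else 0) -
        ((if a = e then 1 else 0) * (if d = b then 1 else 0) * (ν * len x ^ 2) +
          (∑ f, ∑ h, eps a e f * eps d b h * t f h) * len x ^ 2)) := by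
  rw [← U3L_apply]
  unfold D3
  simp only [map_add, map_smul, map_sum, LinearMap.add_apply, LinearMap.smul_apply,
    LinearMap.sum_apply, smul_eq_mul]
  simp only [U3L_apply]
  have dsm : ∀ (r : ℝ) (v w : V1 n), dt v (r • w) = r * dt v w := by
    intro r v w
    simp only [dt, Pi.smul_apply, smul_eq_mul, Finset.mul_sum]
    exact Finset.sum_congr rfl fun i _ => by ring
  have e1 : U3 G (X3 (xv x) C') (X3 (xv x) C) = c' * c * (ν * len x ^ 2) := by
    rw [U3_XX, mvT_eq_mv hC.symm, mvT_eq_mv hC'.symm, hC'.hx, mv_smul, hC.hx, mv_smul, mv_smul,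
      dsm, dsm, hG.xGx]
    ring
  have e2 : U3 G (X3 (xv x) C') (S3 dl (xv x)) =
      ν * len x ^ 2 * (∑ i, C' i i) + c' * (ν * len x ^ 2) := by
    rw [U3_XS, mv_dl, hC'.hx, mv_smul, dsm, hG.xGx]
    congr 2
    simp [dl]
  have e3 : ∀ a b, U3 G (X3 (xv x) C') (S3 (Jm Q a) (Yv Q x b)) =
      -(ν * len x ^ 2 * tc' a b) := by
    intro a b
    rw [U3_XS, hG.xGY, zero_mul, zero_add, ← xGJTCY hG hC' a b]
    have : mv (Jm Q a) (mv C' (Yv Q x b)) = -mvT (Jm Q a) (mv C' (Yv Q x b)) := by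
      funext i
      simp only [mv, mvT, Jm, Pi.neg_apply, ← Finset.sum_neg_distrib]
      exact Finset.sum_congr rfl fun j _ => by rw [Q.skew_apply a i j]; ring
    rw [this, mv_neg, dt_neg_right]
  have e4 : U3 G (S3 dl (xv x)) (X3 (xv x) C) = c * (ν * len x ^ 2) + len x ^ 2 * pr G C := by
    rw [U3_SX G _ _ hC.symm, mvT_dl, hC.hx, mv_smul, dsm, hG.xGx, dt_xx]
    congr 2
    unfold pr
    refine Finset.sum_congr rfl fun k _ => Finset.sum_congr rfl fun l _ => ?_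
    congr 1
    simp [dl]
  have e5 : U3 G (S3 dl (xv x)) (S3 dl (xv x)) =
      3 * (ν * len x ^ 2) + len x ^ 2 * ∑ k, G k k := by
    rw [U3_SS, Adm.trU_dd, mvT_dl, mv_dl, mvT_dl, hG.xGx, dt_xx]
    ring
  have e6 : ∀ a b, U3 G (S3 dl (xv x)) (S3 (Jm Q a) (Yv Q x b)) = t b a * len x ^ 2 := by
    intro a b
    rw [U3_SS, dt_xY, mvT_dl, mvT_dl, mvT_dl, mvT_J_x, mv_J_x, dt_neg_left, hG.YGY, hG.YGY]
    ring
  have e7 : ∀ a b, U3 G (S3 (Jm Q a) (Yv Q x b)) (X3 (xv x) C) =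
      -(len x ^ 2 * ∑ e, t a e * tc e b) := by
    intro a b
    rw [U3_SX G _ _ hC.symm, dt_Yx, zero_mul, add_zero, mvT_J_x, dt_neg_left, YGCY hG hC]
  have e8 : ∀ a b, U3 G (S3 (Jm Q a) (Yv Q x b)) (S3 dl (xv x)) =
      2 * (if a = b then ν * len x ^ 2 else 0) - t a b * len x ^ 2 := by
    intro a b
    rw [U3_SS, dt_Yx, mvT_dl, mv_dl, JTY_Gx hG, mvT_J_x, dt_neg_left, hG.YGY]
    ring
  have e9 : ∀ a b d e, U3 G (S3 (Jm Q a) (Yv Q x b)) (S3 (Jm Q d) (Yv Q x e)) =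
      (if b = e then len x ^ 2 else 0) * (if a = d then -∑ k, G k k else 0) -
        ((if a = e then 1 else 0) * (if d = b then 1 else 0) * (ν * len x ^ 2) +
          (∑ f, ∑ h, eps a e f * eps d b h * t f h) * len x ^ 2) := by
    intro a b d e
    rw [U3_SS, mv_J_Y, mvT_neg, dt_neg_left, mv_neg, dt_neg_right, hG.JJ, hG.trU_JJ, dt_YY]
    ring
  simp only [e1, e2, e3, e4, e5, e6, e7, e8, e9]
  simp only [mul_add, Finset.sum_add_distrib, Finset.mul_sum]
  ring_nf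

end vals

end Vale.Agent.P366.T2
end
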