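import Vale.Agent.P366.T2.A765.Tt

/-!
# The vector fields `L` and `V` of the quaternionic metrics are radial
-/

open MeasureTheory Metric Filter Topology Set
open scoped BigOperators ContDiff ENNReal

noncomputable section
namespace Vale.Agent.P366.T2
open Vale.Agent.P366.Stmt

variable {n : ℕ}

lemma contr_S3 {G : V2 n} (hG : ∀ i j, G i j = G j i) (A : V2 n) (b : V1 n) (i : Fin n) :
    ∑ k, ∑ l, G k l * S3 A b i k l = 2 * mvT A (mv G b) i := by
  unfold S3
  have e1 : ∑ k, ∑ l, G k l * (A k i * b l + b k * A l i) =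
      (∑ k, ∑ l, G k l * (A k i * b l)) + ∑ k, ∑ l, G k l * (b k * A l i) := by
    rw [← Finset.sum_add_distrib]
    refine Finset.sum_congr rfl fun k _ => ?_
    rw [← Finset.sum_add_distrib]
    exact Finset.sum_congr rfl fun l _ => by ring
  have e2 : ∑ k, ∑ l, G k l * (b k * A l i) = ∑ k, ∑ l, G k l * (A k i * b l) := by
    rw [Finset.sum_comm]
    exact Finset.sum_congr rfl fun k _ => Finset.sum_congr rfl fun l _ => by
      rw [hG l k]; ring
  rw [e1, e2, ← two_mul]
  congr 1
  unfold mvT mv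
  refine Finset.sum_congr rfl fun k _ => ?_
  rw [Finset.mul_sum]
  exact Finset.sum_congr rfl fun l _ => by ring

/-- contraction of the derivative of an invariant tensor with `G` -/
lemma contr_D3 {Q : Quat n} {x : E n} {G : V2 n} {ν : ℝ} {t : Fin 3 → Fin 3 → ℝ}
    (hG : Adm Q x G ν t) (C : V2 n) (u : ℝ) (s : Fin 3 → Fin 3 → ℝ)
    (hst : ∀ a e, ∑ b, s a b * t e b = ∑ b, s e b * t a b) (i : Fin n) :
    ∑ k, ∑ l, G k l * D3 Q x C u s i k l =
      (pr G C + 2 * u * ν + 2 * ∑ a, ∑ b, s a b * t a b) * x i := by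
  unfold D3
  simp only [Pi.add_apply, Pi.smul_apply, Finset.sum_apply, smul_eq_mul, mul_add,
    Finset.sum_add_distrib]
  have e1 : ∑ k, ∑ l, G k l * X3 (xv x) C i k l = pr G C * x i := by
    unfold X3 pr xv
    rw [Finset.sum_mul]
    refine Finset.sum_congr rfl fun k _ => ?_
    rw [Finset.sum_mul]
    exact Finset.sum_congr rfl fun l _ => by ring
  have e2 : ∑ k, ∑ l, G k l * (u * S3 dl (xv x) i k l) = 2 * u * ν * x i := by
    rw [sum_const G u (fun k l => rfl), contr_S3 hG.symm, mvT_dl, hG.hx]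
    simp only [Pi.smul_apply, smul_eq_mul, xv]
    ring
  have e3 : ∑ k, ∑ l, G k l * ∑ a, ∑ b, s a b * S3 (Jm Q a) (Yv Q x b) i k l =
      (2 * ∑ a, ∑ b, s a b * t a b) * x i := by
    have h1 : ∑ k, ∑ l, G k l * ∑ a, ∑ b, s a b * S3 (Jm Q a) (Yv Q x b) i k l =
        ∑ a, ∑ b, s a b * ∑ k, ∑ l, G k l * S3 (Jm Q a) (Yv Q x b) i k l := by
      simp only [Finset.mul_sum]
      calc ∑ k, ∑ l, ∑ a, ∑ b, G k l * (s a b * S3 (Jm Q a) (Yv Q x b) i k l)
          = ∑ k, ∑ a, ∑ l, ∑ b, G k l * (s a b * S3 (Jm Q a) (Yv Q x b) i k l) :=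
            Finset.sum_congr rfl fun k _ => Finset.sum_comm
        _ = ∑ a, ∑ k, ∑ l, ∑ b, G k l * (s a b * S3 (Jm Q a) (Yv Q x b) i k l) :=
            Finset.sum_comm
        _ = ∑ a, ∑ k, ∑ b, ∑ l, G k l * (s a b * S3 (Jm Q a) (Yv Q x b) i k l) :=
            Finset.sum_congr rfl fun a _ => Finset.sum_congr rfl fun k _ => Finset.sum_comm
        _ = ∑ a, ∑ b, ∑ k, ∑ l, G k l * (s a b * S3 (Jm Q a) (Yv Q x b) i k l) :=
            Finset.sum_congr rfl fun a _ => Finset.sum_comm
        _ = _ := Finset.sum_congr rfl fun a _ => Finset.sum_congr rfl fun b _ =>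
            Finset.sum_congr rfl fun k _ => Finset.sum_congr rfl fun l _ => by ring
    rw [h1]
    have h2 : ∀ a b, ∑ k, ∑ l, G k l * S3 (Jm Q a) (Yv Q x b) i k l =
        2 * (t a b * x i - ∑ e, t e b * ∑ c, eps a e c * Q.Y c x i) := by
      intro a b
      rw [contr_S3 hG.symm, hG.hY, mvT_sum]
      congr 1
      simp only [mvT_smul, mvT_J_Y]
      simp only [Finset.sum_apply, Pi.smul_apply, Pi.sub_apply, smul_eq_mul,
        mul_sub, Finset.sum_sub_distrib]
      congr 1
      simp [xv]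
    simp only [h2]
    have h3 : ∑ a, ∑ b, s a b * (2 * (t a b * x i - ∑ e, t e b * ∑ c, eps a e c * Q.Y c x i)) =
        (2 * ∑ a, ∑ b, s a b * t a b) * x i -
        2 * ∑ a, ∑ e, (∑ b, s a b * t e b) * ∑ c, eps a e c * Q.Y c x i := by
      rw [Finset.mul_sum, Finset.mul_sum, Finset.sum_mul, ← Finset.sum_sub_distrib]
      refine Finset.sum_congr rfl fun a _ => ?_
      have h4 : ∑ e, (∑ b, s a b * t e b) * ∑ c, eps a e c * Q.Y c x i =
          ∑ b, s a b * ∑ e, t e b * ∑ c, eps a e c * Q.Y c x i := by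
        calc ∑ e, (∑ b, s a b * t e b) * ∑ c, eps a e c * Q.Y c x i
            = ∑ e, ∑ b, s a b * (t e b * ∑ c, eps a e c * Q.Y c x i) := by
              refine Finset.sum_congr rfl fun e _ => ?_
              rw [Finset.sum_mul]
              exact Finset.sum_congr rfl fun b _ => by ring
          _ = ∑ b, ∑ e, s a b * (t e b * ∑ c, eps a e c * Q.Y c x i) := Finset.sum_comm
          _ = _ := by
              refine Finset.sum_congr rfl fun b _ => ?_
              rw [Finset.mul_sum]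
      rw [h4, Finset.mul_sum, Finset.mul_sum, Finset.sum_mul, ← Finset.sum_sub_distrib]
      exact Finset.sum_congr rfl fun b _ => by ring
    rw [h3]
    have h5 : ∑ a, ∑ e, (∑ b, s a b * t e b) * ∑ c, eps a e c * Q.Y c x i = 0 := by
      have h6 : ∑ a, ∑ e, (∑ b, s a b * t e b) * ∑ c, eps a e c * Q.Y c x i =
          -∑ a, ∑ e, (∑ b, s a b * t e b) * ∑ c, eps a e c * Q.Y c x i := by
        conv_lhs => rw [Finset.sum_comm]
        rw [← Finset.sum_neg_distrib]
        refine Finset.sum_congr rfl fun a _ => ?_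
        rw [← Finset.sum_neg_distrib]
        refine Finset.sum_congr rfl fun e _ => ?_
        rw [hst e a, ← mul_neg, ← Finset.sum_neg_distrib]
        congr 1
        exact Finset.sum_congr rfl fun c _ => by rw [eps_swap a e c]; ring
      linarith
    rw [h5]
    ring
  rw [e1, e2, e3]
  ring

/-- divergence of an invariant tensor -/
lemma div_D3 {Q : Quat n} {x : E n} {C : V2 n} {c : ℝ} {tc : Fin 3 → Fin 3 → ℝ}
    (hC : Adm Q x C c tc) (u : ℝ) (s : Fin 3 → Fin 3 → ℝ) (hs : ∀ a b, s a b = s b a)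
    (k : Fin n) :
    ∑ j, D3 Q x C u s j k j = (c + u * (n + 1) - ∑ a, s a a) * x k := by
  unfold D3
  simp only [Pi.add_apply, Pi.smul_apply, Finset.sum_apply, smul_eq_mul,
    Finset.sum_add_distrib]
  have e1 : ∑ j, X3 (xv x) C j k j = c * x k := by
    have := congrFun hC.hx k
    simp only [mv, Pi.smul_apply, smul_eq_mul, xv] at this
    unfold X3
    rw [← this]
    exact Finset.sum_congr rfl fun j _ => by simp only [xv]; ring
  have e2 : ∑ j, u * S3 dl (xv x) j k j = u * (n + 1) * x k := by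
    unfold S3
    rw [← Finset.mul_sum]
    simp [dl, xv, Finset.sum_add_distrib]
    ring
  have e3 : ∑ j, ∑ a, ∑ b, s a b * S3 (Jm Q a) (Yv Q x b) j k j = -(∑ a, s a a) * x k := by
    have h1 : ∑ j, ∑ a, ∑ b, s a b * S3 (Jm Q a) (Yv Q x b) j k j =
        ∑ a, ∑ b, s a b * ∑ j, S3 (Jm Q a) (Yv Q x b) j k j := by
      rw [Finset.sum_comm]
      refine Finset.sum_congr rfl fun a _ => ?_
      rw [Finset.sum_comm]
      exact Finset.sum_congr rfl fun b _ => by rw [Finset.mul_sum]
    rw [h1]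
    have h2 : ∀ a b, ∑ j, S3 (Jm Q a) (Yv Q x b) j k j =
        (if a = b then -x k else 0) + ∑ c, eps a b c * Q.Y c x k := by
      intro a b
      unfold S3
      rw [Finset.sum_add_distrib, ← Finset.mul_sum]
      have : ∑ j, Jm Q a j j = 0 := Q.trace_J a
      rw [this, mul_zero, add_zero]
      exact Q.J_Y a b x k
    simp only [h2, mul_add, Finset.sum_add_distrib]
    have h3 : ∑ a, ∑ b, s a b * ∑ c, eps a b c * Q.Y c x k = 0 := by
      have h4 : ∑ a, ∑ b, s a b * ∑ c, eps a b c * Q.Y c x k =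
          -∑ a, ∑ b, s a b * ∑ c, eps a b c * Q.Y c x k := by
        conv_lhs => rw [Finset.sum_comm]
        rw [← Finset.sum_neg_distrib]
        refine Finset.sum_congr rfl fun a _ => ?_
        rw [← Finset.sum_neg_distrib]
        refine Finset.sum_congr rfl fun b _ => ?_
        rw [hs b a, ← mul_neg, ← Finset.sum_neg_distrib]
        congr 1
        exact Finset.sum_congr rfl fun c _ => by rw [eps_swap a b c]; ring
      linarith
    rw [h3, add_zero, ← Finset.sum_neg_distrib, Finset.sum_mul]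
    refine Finset.sum_congr rfl fun a _ => ?_
    simp
  rw [e1, e2, e3]
  ring

end Vale.Agent.P366.T2
end
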