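import Vale.Agent.P366.T2.A765.Der

/-!
# `L` and `V` for the data
-/

open MeasureTheory Metric Filter Topology Set
open scoped BigOperators ContDiff ENNReal

noncomputable section
namespace Vale.Agent.P366.T2
open Vale.Agent.P366.Stmt

variable {n : ℕ}

namespace Data

variable (D : Data n)

/-- value of the inverse metric -/
def G (x : E n) : V2 n := D.U x

/-- radial derivative tensor of `g` divided by `|x|` -/
def C1 (x : E n) : V2 n :=
  tv D.Q x (deriv D.al (len x) / len x) (D.du1 (len x) / len x)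
    (fun a b => D.ds1 (len x) a b / len x)

/-- radial derivative tensor of `g⁻¹` divided by `|x|` -/
def C2 (x : E n) : V2 n :=
  tv D.Q x (D.df2 (len x) / len x) (D.du2 (len x) / len x)
    (fun a b => D.ds2 (len x) a b / len x)

/-- `D3` tensor of `g` -/
def E1 (x : E n) : V3 n := D3 D.Q x (D.C1 x) (D.u1 (len x)) (fun a b => D.s1 a b (len x))

/-- `D3` tensor of `g⁻¹` -/
def E2 (x : E n) : V3 n := D3 D.Q x (D.C2 x) (D.u2 (len x)) (fun a b => D.s2 a b (len x))

lemma U_eq_tt {x : E n} (hx : x ≠ 0) (i j : Fin n) :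
    D.U x i j = tt D.Q D.f2 D.u2 D.s2 x i j :=
  ten_eq_tt D.Q (fun r => 1 / D.al r) (fun r => 1 / D.p r) (fun a b r => D.iq r a b) hx i j

lemma G_eq {x : E n} (hx : x ≠ 0) : D.G x = tv D.Q x (D.f2 (len x)) (D.u2 (len x))
    (fun a b => D.s2 a b (len x)) := by
  funext i j
  exact D.U_eq_tt hx i j

lemma G_adm {x : E n} (hx : x ≠ 0) :
    Adm D.Q x (D.G x) (1 / D.p (len x)) (fun a b => D.iq (len x) a b) := by
  have hr := len_ne hx
  have h := tv_adm D.Q x (D.f2 (len x)) (D.u2 (len x)) (s := fun a b => D.s2 a b (len x))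
    (fun a b => by rw [D.s2_symm a b])
  rw [D.G_eq hx]
  have e1 : 1 / D.p (len x) = D.f2 (len x) + D.u2 (len x) * len x ^ 2 := by
    unfold f2 u2
    field_simp
    ring
  have e2 : (fun a b => D.iq (len x) a b) = fun a b => D.f2 (len x) * (if a = b then 1 else 0) +
      D.s2 a b (len x) * len x ^ 2 := by
    funext a b
    unfold f2 s2
    split_ifs <;> field_simp <;> ring
  rw [e1, e2]
  exact h

lemma G_trace {x : E n} (hx : x ≠ 0) :
    ∑ k, D.G x k k = (n - 4) / D.al (len x) + 1 / D.p (len x) + ∑ a, D.iq (len x) a a := by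
  have hr := len_ne hx
  rw [D.G_eq hx, tv_trace]
  unfold f2 u2 s2
  simp only [Fin.sum_univ_three, if_true]
  field_simp
  ring

lemma C1_adm {x : E n} :
    Adm D.Q x (D.C1 x) (deriv D.al (len x) / len x + D.du1 (len x) / len x * len x ^ 2)
      (fun a b => deriv D.al (len x) / len x * (if a = b then 1 else 0) +
        D.ds1 (len x) a b / len x * len x ^ 2) :=
  tv_adm D.Q x _ _ (fun a b => by rw [D.ds1_symm])

lemma C2_adm {x : E n} :
    Adm D.Q x (D.C2 x) (D.df2 (len x) / len x + D.du2 (len x) / len x * len x ^ 2)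
      (fun a b => D.df2 (len x) / len x * (if a = b then 1 else 0) +
        D.ds2 (len x) a b / len x * len x ^ 2) :=
  tv_adm D.Q x _ _ (fun a b => by rw [D.ds2_symm])

end Data

variable {D : Data n} {g K : Field n}

lemma g_eq_tt (h : Fits D g K) {x : E n} (hx : D.R ≤ len x) (i j : Fin n) :
    g x i j = tt D.Q D.al D.u1 D.s1 x i j := by
  rw [h.hg x hx]
  exact ten_eq_tt D.Q D.al D.p D.q (len_pos_of hx) i j

lemma isOpen_U' (D : Data n) : IsOpen {x : E n | D.R < len x} :=
  isOpen_lt continuous_const continuous_norm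

lemma pd_g (h : Fits D g K) {x : E n} (hx : D.R < len x) (k i j : Fin n) :
    Stmt.pd k (fun y => g y i j) x = D.E1 x k i j := by
  have hx0 := len_pos_of hx.le
  have hr : 0 < len x := D.hR.trans hx
  have h1 := HP_tt D.Q hx0 (D.al_der (len x)) (D.u1_der hr) (D.s1_der hr) D.s1_symm k i j
  refine (h1.congr ?_).pd
  filter_upwards [(isOpen_U' D).mem_nhds hx] with y hy
  exact g_eq_tt h (le_of_lt hy) i j

lemma pd_up (h : Fits D g K) {x : E n} (hx : D.R < len x) (k i j : Fin n) :
    Stmt.pd k (up g i j) x = D.E2 x k i j := by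
  have hx0 := len_pos_of hx.le
  have h1 := HP_tt D.Q hx0 (D.f2_der hx.le) (D.u2_der hx.le) (D.s2_der hx) D.s2_symm k i j
  refine (h1.congr ?_).pd
  filter_upwards [(isOpen_U' D).mem_nhds hx] with y hy
  rw [up_eq h (le_of_lt hy)]
  exact D.U_eq_tt (len_pos_of (le_of_lt hy)) i j

namespace Data

variable (D : Data n)

/-- `ℓ`, with `L = ℓ x` -/
def elf (r : ℝ) : ℝ :=
  (1 / 2) * (((n : ℝ) - 4) * (deriv D.al r / D.al r) + deriv D.p r / D.p r +
    ∑ a, ∑ b, D.iq r a b * D.dq r a b) / r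

/-- `v`, with `V = v x` -/
def vf (r : ℝ) : ℝ :=
  -(D.elf r / D.p r) + deriv D.p r / D.p r ^ 2 / r - ((n : ℝ) - 1) * D.u2 r +
    ((∑ a, D.iq r a a) - 3 / D.al r) / r ^ 2

end Data

lemma comm_s1 (D : Data n) {r : ℝ} (hr : D.R ≤ r) (a e : Fin 3) :
    ∑ b, D.s1 a b r * D.iq r e b = ∑ b, D.s1 e b r * D.iq r a b := by
  have h1 : ∀ a e, ∑ b, D.s1 a b r * D.iq r e b =
      ((if a = e then 1 else 0) - D.al r * D.iq r e a) / r ^ 2 := by
    intro a e
    have h2 := D.q_iq hr a e
    unfold Data.s1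
    have h3 : ∑ b, (D.q a b r - if a = b then D.al r else 0) / r ^ 2 * D.iq r e b =
        ((∑ b, D.q a b r * D.iq r b e) - ∑ b, (if a = b then D.al r else 0) * D.iq r e b) /
          r ^ 2 := by
      rw [← Finset.sum_sub_distrib, Finset.sum_div]
      refine Finset.sum_congr rfl fun b _ => ?_
      rw [D.iq_symm_apply r b e]
      ring
    rw [h3, h2]
    simp
  rw [h1, h1, D.iq_symm_apply r e a]
  simp only [eq_comm (a := a) (b := e)]

/-- `Lᵢ = ℓ xᵢ` -/
theorem Lg_eq (h : Fits D g K) {x : E n} (hx : D.R < len x) (i : Fin n) :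
    Lg g i x = D.elf (len x) * x i := by
  have hx0 := len_pos_of hx.le
  have hr : 0 < len x := D.hR.trans hx
  have hal := (D.al_pos _ hx.le).ne'
  have hp := (D.p_pos _ hx.le).ne'
  unfold Lg
  have h1 : ∑ k, ∑ l, up g k l x * Stmt.pd i (fun y => g y k l) x =
      ∑ k, ∑ l, D.G x k l * D.E1 x i k l := by
    refine Finset.sum_congr rfl fun k _ => Finset.sum_congr rfl fun l _ => ?_
    rw [pd_g h hx, up_eq h hx.le]
    rfl
  rw [h1]
  unfold Data.E1
  have h2 := contr_D3 (D.G_adm hx0) (D.C1 x) (D.u1 (len x)) (fun a b => D.s1 a b (len x))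
    (fun a e => comm_s1 D hx.le a e) i
  rw [h2]
  unfold Data.C1
  rw [pr_tv D.Q (D.G x) (D.G_adm hx0), D.G_trace hx0]
  unfold Data.elf Data.u1 Data.s1 Data.du1 Data.ds1
  simp only [Fin.sum_univ_three, Fin.isValue, if_true]
  simp
  field_simp
  ring

/-- `Vᵏ = v xᵏ` -/
theorem Vg_eq (h : Fits D g K) {x : E n} (hx : D.R < len x) (k : Fin n) :
    Vg g k x = D.vf (len x) * x k := by
  have hx0 := len_pos_of hx.le
  have hr : 0 < len x := D.hR.trans hx
  have hal := (D.al_pos _ hx.le).ne'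
  have hp := (D.p_pos _ hx.le).ne'
  unfold Vg
  have h1 : ∑ j, up g k j x * Lg g j x = D.elf (len x) / D.p (len x) * x k := by
    have e : ∀ j, up g k j x * Lg g j x = D.elf (len x) * (D.U x k j * x j) := by
      intro j
      rw [Lg_eq h hx, up_eq h hx.le]; ring
    simp only [e, ← Finset.mul_sum, U_x hx0]
    ring
  have h2 : ∑ j, Stmt.pd j (up g k j) x = ∑ j, D.E2 x j k j :=
    Finset.sum_congr rfl fun j _ => pd_up h hx j k j
  rw [h1, h2]
  unfold Data.E2
  rw [div_D3 D.C2_adm _ _ (fun a b => by rw [D.s2_symm a b])]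
  unfold Data.vf Data.du2 Data.u2 Data.s2 Data.dp2 Data.df2
  simp only [Fin.sum_univ_three, if_true]
  field_simp
  ring

end Vale.Agent.P366.T2
end
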