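import Vale.Agent.P366.T2.A765.Tr3

/-!
# The quadratic part of the scalar curvature of the data
-/

open MeasureTheory Metric Filter Topology Set
open scoped BigOperators ContDiff ENNReal

noncomputable section
namespace Vale.Agent.P366.T2
open Vale.Agent.P366.Stmt

variable {n : ℕ}

namespace Data

variable (D : Data n)

/-- `w = q⁻¹` as a function matrix -/
def w (r : ℝ) : M3 := fun a b => D.iq r a b
def qf (r : ℝ) : M3 := fun a b => D.q a b r
def d (r : ℝ) : M3 := fun a b => D.dq r a b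
def dw (r : ℝ) : M3 := fun a b => D.diq r a b
def S1 (r : ℝ) : M3 := fun a b => D.s1 a b r
def S2 (r : ℝ) : M3 := fun a b => D.s2 a b r

def X1 (r : ℝ) : ℝ := ip (D.w r) (D.d r)
def X2 (r : ℝ) : ℝ := -ip (D.d r) (D.dw r)
def X3 (r : ℝ) : ℝ := -tr3m (D.dw r)
def X4 (r : ℝ) : ℝ := tr3m (D.d r)
def TW (r : ℝ) : ℝ := tr3m (D.w r)
def TQ (r : ℝ) : ℝ := tr3m (D.qf r)
def TW2 (r : ℝ) : ℝ := ip (D.w r) (D.w r)

lemma w_symm (r : ℝ) (a b : Fin 3) : D.w r a b = D.w r b a := D.iq_symm_apply r a b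
lemma qf_symm (r : ℝ) (a b : Fin 3) : D.qf r a b = D.qf r b a := D.q_symm' a b r
lemma d_symm (r : ℝ) (a b : Fin 3) : D.d r a b = D.d r b a := D.dq_symm r a b
lemma dw_symm (r : ℝ) (a b : Fin 3) : D.dw r a b = D.dw r b a := D.diq_symm r a b

end Data

section ipl

variable (A B C : M3)

lemma ip_comm : ip A B = ip B A :=
  Finset.sum_congr rfl fun a _ => Finset.sum_congr rfl fun b _ => mul_comm _ _

def idm : M3 := fun a b => if a = b then 1 else 0

lemma ip_id_right : ip A idm = tr3m A := by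
  unfold ip idm tr3m; simp

lemma ip_id_left : ip idm A = tr3m A := by rw [ip_comm, ip_id_right]

lemma tr3m_id : tr3m idm = 3 := by
  unfold tr3m idm; simp

lemma ip_sub_left : ip (A - B) C = ip A C - ip B C := by
  unfold ip
  simp only [Pi.sub_apply, sub_mul, Finset.sum_sub_distrib]

lemma ip_sub_right : ip A (B - C) = ip A B - ip A C := by
  unfold ip
  simp only [Pi.sub_apply, mul_sub, Finset.sum_sub_distrib]

lemma ip_smul_left (c : ℝ) : ip (c • A) B = c * ip A B := by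
  unfold ip
  simp only [Pi.smul_apply, smul_eq_mul, Finset.mul_sum, mul_assoc]

lemma ip_smul_right (c : ℝ) : ip A (c • B) = c * ip A B := by
  rw [ip_comm, ip_smul_left, ip_comm]

lemma tr3m_sub : tr3m (A - B) = tr3m A - tr3m B := by
  unfold tr3m; simp only [Pi.sub_apply, Finset.sum_sub_distrib]

lemma tr3m_smul (c : ℝ) : tr3m (c • A) = c * tr3m A := by
  unfold tr3m; simp only [Pi.smul_apply, smul_eq_mul, Finset.mul_sum]

lemma mm_sub_right : mm A (B - C) = mm A B - mm A C := by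
  funext a b
  simp only [mm, Pi.sub_apply, mul_sub, Finset.sum_sub_distrib]

lemma mm_sub_left : mm (A - B) C = mm A C - mm B C := by
  funext a b
  simp only [mm, Pi.sub_apply, sub_mul, Finset.sum_sub_distrib]

lemma mm_smul_right (c : ℝ) : mm A (c • B) = c • mm A B := by
  funext a b
  simp only [mm, Pi.smul_apply, smul_eq_mul, Finset.mul_sum]
  exact Finset.sum_congr rfl fun e _ => by ring

lemma mm_smul_left (c : ℝ) : mm (c • A) B = c • mm A B := by
  funext a b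
  simp only [mm, Pi.smul_apply, smul_eq_mul, Finset.mul_sum]
  exact Finset.sum_congr rfl fun e _ => by ring

lemma mm_id : mm A idm = A := by
  funext a b; simp [mm, idm]

lemma id_mm : mm idm A = A := by
  funext a b; simp [mm, idm]

end ipl

namespace Data

variable (D : Data n) {r : ℝ}

lemma S1_eq (hr : 0 < r) : D.S1 r = (1 / r ^ 2) • (D.qf r - D.al r • idm) := by
  funext a b
  simp only [S1, s1, qf, idm, Pi.smul_apply, Pi.sub_apply, smul_eq_mul]
  split_ifs <;> field_simp <;> ring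

lemma S2_eq (hr : 0 < r) : D.S2 r = (1 / r ^ 2) • (D.w r - (1 / D.al r) • idm) := by
  funext a b
  simp only [S2, s2, w, idm, Pi.smul_apply, Pi.sub_apply, smul_eq_mul]
  split_ifs <;> field_simp <;> ring

lemma mm_q_w (hr : D.R ≤ r) : mm (D.qf r) (D.w r) = idm := by
  funext a b; exact D.q_iq hr a b

lemma mm_w_q (hr : D.R ≤ r) : mm (D.w r) (D.qf r) = idm := by
  funext a b; exact D.iq_q hr a b

lemma ip_q_w (hr : D.R ≤ r) : ip (D.qf r) (D.w r) = 3 := by
  have h : ip (D.qf r) (D.w r) = tr3m (mm (D.qf r) (D.w r)) := by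
    unfold ip tr3m mm
    exact Finset.sum_congr rfl fun a _ => Finset.sum_congr rfl fun b _ => by rw [D.w_symm r a b]
  rw [h, D.mm_q_w hr, tr3m_id]

lemma ip_q_dw (hr : D.R ≤ r) : ip (D.qf r) (D.dw r) = -D.X1 r := by
  have h1 : ∀ a c, ∑ b, D.q a b r * D.iq r c b = if a = c then 1 else 0 := by
    intro a c
    rw [← D.q_iq hr a c]
    exact Finset.sum_congr rfl fun b _ => by rw [D.iq_symm_apply r c b]
  unfold ip qf dw diq X1 ip w d
  have h2 : ∀ a, ∑ b, D.q a b r * -∑ c, ∑ e, D.iq r a c * D.dq r c e * D.iq r e b =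
      -∑ c, D.iq r a c * D.dq r c a := by
    intro a
    have h3 : ∑ b, D.q a b r * -∑ c, ∑ e, D.iq r a c * D.dq r c e * D.iq r e b =
        -∑ c, ∑ e, D.iq r a c * D.dq r c e * ∑ b, D.q a b r * D.iq r e b := by
      simp only [mul_neg, Finset.sum_neg_distrib, Finset.mul_sum]
      congr 1
      calc ∑ b, ∑ c, ∑ e, D.q a b r * (D.iq r a c * D.dq r c e * D.iq r e b)
          = ∑ c, ∑ b, ∑ e, D.q a b r * (D.iq r a c * D.dq r c e * D.iq r e b) :=
            Finset.sum_comm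
        _ = ∑ c, ∑ e, ∑ b, D.q a b r * (D.iq r a c * D.dq r c e * D.iq r e b) :=
            Finset.sum_congr rfl fun c _ => Finset.sum_comm
        _ = _ := Finset.sum_congr rfl fun c _ => Finset.sum_congr rfl fun e _ =>
            Finset.sum_congr rfl fun b _ => by ring
    rw [h3]
    simp only [h1, mul_ite, mul_one, mul_zero, Finset.sum_ite_eq, Finset.mem_univ, if_true]
  simp only [h2, Finset.sum_neg_distrib]
  congr 1
  exact Finset.sum_congr rfl fun a _ => Finset.sum_congr rfl fun b _ => by rw [D.dq_symm r b a]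

lemma ip_w_mm_w_d : ip (D.w r) (mm (D.w r) (D.d r)) = D.X3 r := by
  unfold X3 tr3m dw diq ip mm w d
  simp only [Fin.sum_univ_three, D.iq_symm_apply r 1 0, D.iq_symm_apply r 2 0,
    D.iq_symm_apply r 2 1, D.dq_symm r 1 0, D.dq_symm r 2 0, D.dq_symm r 2 1]
  ring

lemma tr_mm_w_d : tr3m (mm (D.w r) (D.d r)) = D.X1 r := by
  unfold X1 tr3m ip mm w d
  exact Finset.sum_congr rfl fun a _ => Finset.sum_congr rfl fun b _ => by rw [D.dq_symm r b a]

lemma ip_w_d : ip (D.w r) (D.d r) = D.X1 r := rfl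
lemma ip_d_dw : ip (D.d r) (D.dw r) = -D.X2 r := by unfold X2; ring
lemma tr_dw : tr3m (D.dw r) = -D.X3 r := by unfold X3; ring
lemma tr_d : tr3m (D.d r) = D.X4 r := rfl
lemma tr_w : tr3m (D.w r) = D.TW r := rfl
lemma tr_q : tr3m (D.qf r) = D.TQ r := rfl
lemma ip_w_w : ip (D.w r) (D.w r) = D.TW2 r := rfl

/-- `ip S1 S2` etc. -/
lemma ip_S1_S2 (hr : D.R ≤ r) : ip (D.S1 r) (D.S2 r) =
    (6 - D.al r * D.TW r - D.TQ r / D.al r) / (r ^ 2) ^ 2 := by
  have h0 : 0 < r := D.hR.trans_le hr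
  have hal := (D.al_pos r hr).ne'
  rw [D.S1_eq h0, D.S2_eq h0]
  simp only [ip_smul_left, ip_smul_right, ip_sub_left, ip_sub_right, ip_id_left, ip_id_right,
    tr3m_id, tr3m_smul, tr3m_sub, D.ip_q_w hr, tr_q, tr_w]
  field_simp
  ring

lemma ip_S1_w (hr : D.R ≤ r) : ip (D.S1 r) (D.w r) = (3 - D.al r * D.TW r) / r ^ 2 := by
  have h0 : 0 < r := D.hR.trans_le hr
  rw [D.S1_eq h0]
  simp only [ip_smul_left, ip_sub_left, ip_id_left, D.ip_q_w hr, tr_w]
  field_simp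

lemma ip_S2_w (hr : D.R ≤ r) : ip (D.S2 r) (D.w r) = (D.TW2 r - D.TW r / D.al r) / r ^ 2 := by
  have h0 : 0 < r := D.hR.trans_le hr
  rw [D.S2_eq h0]
  simp only [ip_smul_left, ip_sub_left, ip_id_left, ip_w_w, tr_w]
  field_simp

lemma ip_S1_dw (hr : D.R ≤ r) : ip (D.S1 r) (D.dw r) =
    (-D.X1 r + D.al r * D.X3 r) / r ^ 2 := by
  have h0 : 0 < r := D.hR.trans_le hr
  rw [D.S1_eq h0]
  simp only [ip_smul_left, ip_sub_left, ip_id_left, D.ip_q_dw hr, tr_dw]
  field_simp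
  ring

lemma ip_S2_d (hr : D.R ≤ r) : ip (D.S2 r) (D.d r) =
    (D.X1 r - D.X4 r / D.al r) / r ^ 2 := by
  have h0 : 0 < r := D.hR.trans_le hr
  rw [D.S2_eq h0]
  simp only [ip_smul_left, ip_sub_left, ip_id_left, ip_w_d, tr_d]
  field_simp

lemma mm_w_S1 (hr : D.R ≤ r) : mm (D.w r) (D.S1 r) = (1 / r ^ 2) • (idm - D.al r • D.w r) := by
  have h0 : 0 < r := D.hR.trans_le hr
  rw [D.S1_eq h0, mm_smul_right, mm_sub_right, mm_smul_right, mm_id, D.mm_w_q hr]

lemma mm_S1_w (hr : D.R ≤ r) : mm (D.S1 r) (D.w r) = (1 / r ^ 2) • (idm - D.al r • D.w r) := by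
  have h0 : 0 < r := D.hR.trans_le hr
  rw [D.S1_eq h0, mm_smul_left, mm_sub_left, mm_smul_left, id_mm, D.mm_q_w hr]

lemma ip_S2_mm_w_S1 (hr : D.R ≤ r) : ip (D.S2 r) (mm (D.w r) (D.S1 r)) =
    (2 * D.TW r - D.al r * D.TW2 r - 3 / D.al r) / (r ^ 2) ^ 2 := by
  have h0 : 0 < r := D.hR.trans_le hr
  have hal := (D.al_pos r hr).ne'
  rw [D.mm_w_S1 hr, D.S2_eq h0]
  simp only [ip_smul_left, ip_smul_right, ip_sub_left, ip_sub_right, ip_id_left, ip_id_right,
    tr3m_id, tr3m_smul, tr3m_sub, ip_w_w, tr_w]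
  field_simp
  ring

lemma ip_S2_mm_S1_w (hr : D.R ≤ r) : ip (D.S2 r) (mm (D.S1 r) (D.w r)) =
    (2 * D.TW r - D.al r * D.TW2 r - 3 / D.al r) / (r ^ 2) ^ 2 := by
  rw [D.mm_S1_w hr, ← D.mm_w_S1 hr, D.ip_S2_mm_w_S1 hr]

lemma ip_S2_mm_w_d (hr : D.R ≤ r) : ip (D.S2 r) (mm (D.w r) (D.d r)) =
    (D.X3 r - D.X1 r / D.al r) / r ^ 2 := by
  have h0 : 0 < r := D.hR.trans_le hr
  rw [D.S2_eq h0]
  simp only [ip_smul_left, ip_sub_left, ip_id_left, ip_w_mm_w_d, tr_mm_w_d]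
  field_simp

lemma tr_S1 (hr : D.R ≤ r) : tr3m (D.S1 r) = (D.TQ r - 3 * D.al r) / r ^ 2 := by
  have h0 : 0 < r := D.hR.trans_le hr
  rw [D.S1_eq h0]
  simp only [tr3m_smul, tr3m_sub, tr3m_id, tr_q]
  field_simp

lemma tr_S2 (hr : D.R ≤ r) : tr3m (D.S2 r) = (D.TW r - 3 / D.al r) / r ^ 2 := by
  have h0 : 0 < r := D.hR.trans_le hr
  rw [D.S2_eq h0]
  simp only [tr3m_smul, tr3m_sub, tr3m_id, tr_w]
  field_simp

end Data

end Vale.Agent.P366.T2
end
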