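import Vale.Agent.P366.T2.A765.Val2

/-!
# The function `D.Rg` in terms of the scalar invariants
-/

open MeasureTheory Metric Filter Topology Set
open scoped BigOperators ContDiff ENNReal

noncomputable section
namespace Vale.Agent.P366.T2
open Vale.Agent.P366.Stmt

variable {n : ℕ}

/-- second elementary symmetric function of a `3 × 3` matrix -/
lemma e2_three (M : Matrix (Fin 3) (Fin 3) ℝ) (hM : M.det ≠ 0) :
    M.trace ^ 2 - (M * M).trace = 2 * M.det * (M⁻¹).trace := by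
  have h1 : (M⁻¹).trace = M.det⁻¹ * (M.adjugate).trace := by
    rw [Matrix.inv_def, Matrix.trace_smul, smul_eq_mul, Ring.inverse_eq_inv']
  rw [h1, Matrix.adjugate_fin_three, Matrix.trace_fin_three, Matrix.trace_fin_three,
    Matrix.trace_fin_three]
  field_simp
  simp [Matrix.mul_apply, Fin.sum_univ_three]
  ring

namespace Data

variable (D : Data n) {r : ℝ}

lemma TW_eq : D.TW r = (D.iq r).trace := rfl

lemma TQ_eq : D.TQ r = (D.qm r).trace := rfl

lemma TW2_eq : D.TW2 r = (D.iq r * D.iq r).trace := by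
  unfold TW2 ip w Matrix.trace
  refine Finset.sum_congr rfl fun a _ => ?_
  rw [Matrix.diag_apply, Matrix.mul_apply]
  exact Finset.sum_congr rfl fun b _ => by rw [D.iq_symm_apply r b a]

lemma X1_eq : D.X1 r = (D.iq r * D.dq r).trace := by
  unfold X1 ip w d Matrix.trace
  refine Finset.sum_congr rfl fun a _ => ?_
  rw [Matrix.diag_apply, Matrix.mul_apply]
  exact Finset.sum_congr rfl fun b _ => by rw [D.dq_symm r b a]

lemma X2_eq : D.X2 r = ((D.iq r * D.dq r) * (D.iq r * D.dq r)).trace := by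
  have h : D.X2 r = (D.dq r * (D.iq r * D.dq r * D.iq r)).trace := by
    unfold X2 ip d dw diq Matrix.trace
    rw [← Finset.sum_neg_distrib]
    refine Finset.sum_congr rfl fun a _ => ?_
    rw [Matrix.diag_apply, Matrix.mul_apply, ← Finset.sum_neg_distrib]
    refine Finset.sum_congr rfl fun b _ => ?_
    rw [mul_neg, neg_neg, Matrix.mul_apply]
    congr 1
    have e1 : ∀ e, (D.iq r * D.dq r) b e = ∑ c, D.iq r b c * D.dq r c e := fun e =>
      Matrix.mul_apply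
    simp only [e1, Finset.sum_mul]
    calc ∑ c, ∑ e, D.iq r a c * D.dq r c e * D.iq r e b
        = ∑ c, ∑ e, D.iq r b e * D.dq r e c * D.iq r c a := by
          refine Finset.sum_congr rfl fun c _ => Finset.sum_congr rfl fun e _ => ?_
          rw [D.iq_symm_apply r a c, D.iq_symm_apply r e b, D.dq_symm r c e]
          ring
      _ = _ := rfl
  rw [h, ← Matrix.mul_assoc, Matrix.trace_mul_comm]
  simp only [Matrix.mul_assoc]

lemma det_pos765 (hr : D.R ≤ r) : 0 < (D.qm r).det := D.qm_det_pos hr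

lemma F1 (hr : D.R ≤ r) : D.TQ r ^ 2 - (D.qm r * D.qm r).trace = 2 * (D.qm r).det * D.TW r :=
  e2_three (D.qm r) (D.qm_det_ne hr)

lemma F2 (hr : D.R ≤ r) : (D.qm r).det * (D.TW r ^ 2 - D.TW2 r) = 2 * D.TQ r := by
  have hd := D.qm_det_ne hr
  have hd2 : (D.iq r).det = (D.qm r).det⁻¹ := by
    unfold iq
    rw [Matrix.det_nonsing_inv, Ring.inverse_eq_inv']
  have hd3 : (D.iq r).det ≠ 0 := by rw [hd2]; exact inv_ne_zero hd
  have h := e2_three (D.iq r) hd3
  have h1 : (D.iq r)⁻¹ = D.qm r := Matrix.inv_eq_right_inv (D.iq_mul_qm hr)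
  rw [h1, hd2, ← D.TW2_eq, ← D.TW_eq, ← D.TQ_eq] at h
  rw [h]
  field_simp

lemma qh_eq765 (r : ℝ) : D.qh r = r ^ 2 • D.qm r := by
  ext a b; simp [qh, qm]

/-- the scalar curvature of the spheres -/
lemma Rh_eq (hr : D.R ≤ r) : D.Rh r =
    (-D.TQ r * (D.TW r ^ 2 - D.TW2 r) + 8 * D.TW r) / r ^ 2 +
      ((n : ℝ) - 4) * ((n : ℝ) - 4 + 8) / (r ^ 2 * D.al r) -
      ((n : ℝ) - 4) * D.TQ r / (r ^ 2 * D.al r ^ 2) := by
  have h0 : 0 < r := D.hR.trans_le hr
  have hal := (D.al_pos _ hr).ne'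
  have hd := D.qm_det_ne hr
  have f1 := D.F1 hr
  have f2 := D.F2 hr
  unfold Rh b Yh
  rw [D.qh_eq765, Matrix.trace_smul, Matrix.smul_mul, Matrix.mul_smul, Matrix.trace_smul,
    Matrix.trace_smul, Matrix.det_smul, ← D.TQ_eq, Fintype.card_fin]
  simp only [smul_eq_mul]
  have f3 : (D.qm r * D.qm r).trace = D.TQ r ^ 2 - 2 * (D.qm r).det * D.TW r := by linarith
  rw [f3]
  have f4 : D.TQ r * D.TQ r = (D.qm r).det * (D.TW r ^ 2 - D.TW2 r) * D.TQ r / 2 := by
    rw [f2]; ring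
  have e : 2 * ((r ^ 2 * D.TQ r) ^ 2 - 2 * (r ^ 2 * (r ^ 2 *
      (D.TQ r ^ 2 - 2 * (D.qm r).det * D.TW r)))) / ((r ^ 2) ^ 3 * (D.qm r).det) =
      (-D.TQ r * (D.TW r ^ 2 - D.TW2 r) + 8 * D.TW r) / r ^ 2 := by
    have e1 : 2 * ((r ^ 2 * D.TQ r) ^ 2 - 2 * (r ^ 2 * (r ^ 2 *
      (D.TQ r ^ 2 - 2 * (D.qm r).det * D.TW r)))) = (r ^ 2) ^ 2 * (-2 * (D.TQ r * D.TQ r) +
        8 * (D.qm r).det * D.TW r) := by ring
    rw [e1, f4]
    field_simp
  rw [e]
  field_simp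

lemma deriv_t2q (a b : Fin 3) (r : ℝ) :
    deriv (fun t => t ^ 2 * D.q a b t) r = 2 * r * D.q a b r + r ^ 2 * D.dq r a b :=
  ((sq_der r).mul (D.q_der a b r)).deriv

lemma A_eq765 (hr : D.R ≤ r) : D.A r = (1 / r) • (1 : Matrix (Fin 3) (Fin 3) ℝ) +
    (1 / 2 : ℝ) • (D.iq r * D.dq r) := by
  have h0 : 0 < r := D.hR.trans_le hr
  have h1 : (D.qh r)⁻¹ = (r ^ 2)⁻¹ • D.iq r := by
    refine Matrix.inv_eq_right_inv ?_
    rw [D.qh_eq765, Matrix.smul_mul, Matrix.mul_smul, D.qm_mul_iq hr, smul_smul,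
      mul_inv_cancel₀ (pow_ne_zero 2 h0.ne'), one_smul]
  have h2 : (Matrix.of fun a b => deriv (fun t => t ^ 2 * D.q a b t) r) =
      (2 * r) • D.qm r + r ^ 2 • D.dq r := by
    ext a b
    simp only [Matrix.of_apply, Matrix.add_apply, Matrix.smul_apply, smul_eq_mul, D.deriv_t2q]
    rfl
  unfold A
  rw [h1, h2, Matrix.smul_mul, Matrix.mul_add, Matrix.mul_smul, Matrix.mul_smul,
    D.iq_mul_qm hr, smul_add, smul_smul, smul_smul, smul_add, smul_smul, smul_smul]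
  congr 1
  · congr 1
    field_simp
  · congr 1
    field_simp

lemma tr_A (hr : D.R ≤ r) : (D.A r).trace = 3 / r + D.X1 r / 2 := by
  rw [D.A_eq765 hr, Matrix.trace_add, Matrix.trace_smul, Matrix.trace_smul, ← D.X1_eq,
    Matrix.trace_one, Fintype.card_fin]
  simp only [smul_eq_mul]
  push_cast
  ring

lemma tr_A2 (hr : D.R ≤ r) : (D.A r * D.A r).trace = 3 / r ^ 2 + D.X1 r / r + D.X2 r / 4 := by
  rw [D.A_eq765 hr, Matrix.add_mul, Matrix.mul_add, Matrix.mul_add, Matrix.trace_add,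
    Matrix.trace_add, Matrix.trace_add]
  simp only [Matrix.smul_mul, Matrix.mul_smul, Matrix.one_mul, Matrix.mul_one, Matrix.trace_smul,
    smul_eq_mul, ← D.X1_eq, ← D.X2_eq, Matrix.trace_one, Fintype.card_fin]
  push_cast
  ring

lemma yb_eq (hr : D.R ≤ r) : D.yb r = 1 / r + deriv D.al r / (2 * D.al r) := by
  have h0 : 0 < r := D.hR.trans_le hr
  have hal := (D.al_pos _ hr).ne'
  have h1 : deriv D.Yh r = 2 * r * D.al r + r ^ 2 * deriv D.al r :=
    ((sq_der r).mul (D.al_der r)).deriv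
  unfold yb
  rw [h1]
  unfold Yh
  field_simp

lemma elf_eq (r : ℝ) : D.elf r =
    (1 / 2) * (((n : ℝ) - 4) * (deriv D.al r / D.al r) + deriv D.p r / D.p r + D.X1 r) / r := rfl

/-- numerator of `H` -/
def Ef (r : ℝ) : ℝ := ((n : ℝ) - 1) / r + r * D.elf r - deriv D.p r / (2 * D.p r)

lemma H_eq (hr : D.R ≤ r) : D.H r = D.Ef r / √(D.p r) := by
  have h0 : 0 < r := D.hR.trans_le hr
  have hal := (D.al_pos _ hr).ne'
  have hp := (D.p_pos _ hr).ne'
  unfold H b c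
  rw [D.yb_eq hr, D.tr_A hr]
  congr 1
  unfold Ef
  rw [D.elf_eq]
  field_simp
  ring

lemma II2_eq (hr : D.R ≤ r) : D.II2 r =
    (((n : ℝ) - 4) * (1 / r + deriv D.al r / (2 * D.al r)) ^ 2 + (3 / r ^ 2 + D.X1 r / r +
      D.X2 r / 4)) / D.p r := by
  unfold II2 b
  rw [D.yb_eq hr, D.tr_A2 hr]

/-! smoothness of the coefficient functions -/

lemma dal_smooth : ContDiff ℝ ∞ (deriv D.al) :=
  D.al_smooth.iterate_deriv 1

lemma dp_smooth : ContDiff ℝ ∞ (deriv D.p) :=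
  D.p_smooth.iterate_deriv 1

lemma dq_smooth (a b : Fin 3) : ContDiff ℝ ∞ (fun t => D.dq t a b) :=
  (D.q_smooth a b).iterate_deriv 1

lemma elf_diff (hr : D.R ≤ r) : DifferentiableAt ℝ D.elf r := by
  have h0 : 0 < r := D.hR.trans_le hr
  have hal := (D.al_pos _ hr).ne'
  have hp := (D.p_pos _ hr).ne'
  have d1 : DifferentiableAt ℝ (deriv D.al) r := D.dal_smooth.differentiable (by norm_num) r
  have d2 : DifferentiableAt ℝ (deriv D.p) r := D.dp_smooth.differentiable (by norm_num) r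
  have d3 : ∀ a b, DifferentiableAt ℝ (fun t => D.iq t a b * D.dq t a b) r := fun a b =>
    ((D.iq_smooth hr a b).differentiableAt (by norm_num)).mul
      ((D.dq_smooth a b).differentiable (by norm_num) r)
  have d4 : DifferentiableAt ℝ (fun t => ∑ a, ∑ b, D.iq t a b * D.dq t a b) r :=
    DifferentiableAt.fun_sum fun a _ => DifferentiableAt.fun_sum fun b _ => d3 a b
  have d5 : DifferentiableAt ℝ D.al r := (D.al_der r).differentiableAt
  have d6 : DifferentiableAt ℝ D.p r := (D.p_der r).differentiableAt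
  unfold elf
  exact (((((d1.div d5 hal).const_mul _).add (d2.div d6 hp)).add d4).const_mul _).div
    differentiableAt_id h0.ne'

lemma elf_der (hr : D.R ≤ r) : HasDerivAt D.elf (deriv D.elf r) r := (D.elf_diff hr).hasDerivAt

lemma dp_der (r : ℝ) : HasDerivAt (deriv D.p) (deriv (deriv D.p) r) r :=
  (D.dp_smooth.differentiable (by norm_num) r).hasDerivAt

/-- derivative of `Ef` -/
def dEf (r : ℝ) : ℝ := -((n : ℝ) - 1) / r ^ 2 + (D.elf r + r * deriv D.elf r) -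
  (deriv (deriv D.p) r * (2 * D.p r) - deriv D.p r * (2 * deriv D.p r)) / (2 * D.p r) ^ 2

lemma Ef_der (hr : D.R ≤ r) : HasDerivAt D.Ef (D.dEf r) r := by
  have h0 : 0 < r := D.hR.trans_le hr
  have hp := (D.p_pos _ hr).ne'
  have h1 : HasDerivAt (fun t : ℝ => ((n : ℝ) - 1) / t) (-((n : ℝ) - 1) / r ^ 2) r := by
    have h := (hasDerivAt_const r ((n : ℝ) - 1)).div (hasDerivAt_id r) h0.ne'
    have e : (0 * id r - ((n : ℝ) - 1) * 1) / id r ^ 2 = -((n : ℝ) - 1) / r ^ 2 := by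
      simp only [id]; ring
    rw [e] at h
    exact h
  have h2 : HasDerivAt (fun t : ℝ => t * D.elf t) (1 * D.elf r + r * deriv D.elf r) r :=
    (hasDerivAt_id r).mul (D.elf_der hr)
  have h3 : HasDerivAt (fun t : ℝ => deriv D.p t / (2 * D.p t))
      ((deriv (deriv D.p) r * (2 * D.p r) - deriv D.p r * (2 * deriv D.p r)) / (2 * D.p r) ^ 2) r :=
    (D.dp_der r).div ((D.p_der r).const_mul 2) (mul_ne_zero two_ne_zero hp)
  have h := (h1.add h2).sub h3
  rw [one_mul] at h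
  exact h

lemma H_der (hr : D.R < r) : deriv D.H r / D.c r =
    (D.dEf r - D.Ef r * deriv D.p r / (2 * D.p r)) / D.p r := by
  have hp := D.p_pos _ hr.le
  have hs : √(D.p r) ≠ 0 := (Real.sqrt_pos.2 hp).ne'
  have h1 : HasDerivAt (fun t => √(D.p t)) (deriv D.p r / (2 * √(D.p r))) r :=
    (D.p_der r).sqrt hp.ne'
  have h2 : HasDerivAt (fun t => D.Ef t / √(D.p t))
      ((D.dEf r * √(D.p r) - D.Ef r * (deriv D.p r / (2 * √(D.p r)))) / √(D.p r) ^ 2) r :=
    (D.Ef_der hr.le).div h1 hs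
  have h3 : D.H =ᶠ[𝓝 r] fun t => D.Ef t / √(D.p t) := by
    filter_upwards [Ioi_mem_nhds hr] with t ht
    exact D.H_eq (le_of_lt ht)
  rw [(h2.congr_of_eventuallyEq h3).deriv]
  unfold c
  have hsq : √(D.p r) ^ 2 = D.p r := Real.sq_sqrt hp.le
  rw [hsq]
  obtain ⟨s, hs1, hs2⟩ : ∃ s, √(D.p r) = s ∧ D.p r = s * s :=
    ⟨_, rfl, (Real.mul_self_sqrt hp.le).symm⟩
  rw [hs1] at hs
  rw [hs1, hs2]
  field_simp

lemma H_sq (hr : D.R ≤ r) : D.H r ^ 2 = D.Ef r ^ 2 / D.p r := by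
  rw [D.H_eq hr, div_pow, Real.sq_sqrt (D.p_pos _ hr).le]

end Data

end Vale.Agent.P366.T2
end
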