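import Vale.Agent.P366.Bdl.B1

/-!
# The scalar curvature as a divergence plus a quadratic contraction

For every smooth Riemannian metric `g` on an open set of `ℝⁿ` (coordinates, Christoffel symbols
`chr`), `scal g = ∂ₖ Vᵏ - gⁱʲ ∂ⱼ Lᵢ + Lₗ Vˡ - (1/4) (∂ₖ gⁱʲ) gᵏˡ (2 ∂ᵢ gⱼₗ - ∂ₗ gᵢⱼ)` with
`Lᵢ = Γᵏᵢₖ`, `Vᵏ = gⁱʲ Γᵏᵢⱼ`.
-/

open MeasureTheory Metric Filter Topology Set
open scoped BigOperators ENNReal ContDiff

noncomputable section
namespace Vale.Agent.P366.T2

variable {n : ℕ}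

/-- A smooth metric on an open set. -/
structure SmoothMetric (g : Field n) (U : Set (E n)) : Prop where
  op : IsOpen U
  sm : ∀ i j, ContDiffOn ℝ ∞ (fun y => g y i j) U
  symm : ∀ y ∈ U, (g y).IsSymm
  det : ∀ y ∈ U, (g y).det ≠ 0

/-- The contracted Christoffel symbol `Γᵏᵢₖ`. -/
def Lc (g : Field n) (i : Fin n) (x : E n) : ℝ := ∑ k, chr g k i k x

/-- The vector `gⁱʲ Γᵏᵢⱼ`. -/
def Vc (g : Field n) (k : Fin n) (x : E n) : ℝ := ∑ i, ∑ j, (g x)⁻¹ i j * chr g k i j x

namespace SmoothMetric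

variable {g : Field n} {U : Set (E n)} (h : SmoothMetric g U)
include h

lemma smAt {x : E n} (hx : x ∈ U) (i j : Fin n) : ContDiffAt ℝ ∞ (fun y => g y i j) x :=
  (h.sm i j).contDiffAt (h.op.mem_nhds hx)

lemma invAt {x : E n} (hx : x ∈ U) (i j : Fin n) : ContDiffAt ℝ ∞ (fun y => (g y)⁻¹ i j) x :=
  Bridge.contDiffAt_inv_entry (fun i j => h.smAt hx i j) (h.det x hx) i j

lemma chrAt {x : E n} (hx : x ∈ U) (k i j : Fin n) : ContDiffAt ℝ ∞ (chr g k i j) x := by
  unfold chr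
  refine contDiffAt_const.mul (ContDiffAt.sum fun l _ => ?_)
  exact (h.invAt hx k l).mul (((Bridge.pd_smooth (h.smAt hx j l) i).add
    (Bridge.pd_smooth (h.smAt hx i l) j)).sub (Bridge.pd_smooth (h.smAt hx i j) l))

lemma LcAt {x : E n} (hx : x ∈ U) (i : Fin n) : ContDiffAt ℝ ∞ (Lc g i) x := by
  unfold Lc
  exact ContDiffAt.sum fun k _ => h.chrAt hx k i k

lemma VcAt {x : E n} (hx : x ∈ U) (k : Fin n) : ContDiffAt ℝ ∞ (Vc g k) x := by
  unfold Vc
  exact ContDiffAt.sum fun i _ => ContDiffAt.sum fun j _ => (h.invAt hx i j).mul (h.chrAt hx k i j)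

lemma mul_inv {x : E n} (hx : x ∈ U) : g x * (g x)⁻¹ = 1 :=
  Matrix.mul_nonsing_inv _ (isUnit_iff_ne_zero.2 (h.det x hx))

lemma inv_mul {x : E n} (hx : x ∈ U) : (g x)⁻¹ * g x = 1 :=
  Matrix.nonsing_inv_mul _ (isUnit_iff_ne_zero.2 (h.det x hx))

lemma inv_symm {x : E n} (hx : x ∈ U) (i j : Fin n) : (g x)⁻¹ i j = (g x)⁻¹ j i := by
  have h1 : ((g x)⁻¹).IsSymm := by
    unfold Matrix.IsSymm
    rw [Matrix.transpose_nonsing_inv, (h.symm x hx).eq]
  exact (h1.apply j i)

lemma pd_symm {x : E n} (hx : x ∈ U) (k i j : Fin n) :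
    pd k (fun y => g y i j) x = pd k (fun y => g y j i) x := by
  refine pd_congr ?_ k
  filter_upwards [h.op.mem_nhds hx] with y hy
  exact (h.symm y hy).apply j i

/-- Derivative of the inverse. -/
lemma pd_inv {x : E n} (hx : x ∈ U) (k a b : Fin n) :
    pd k (fun y => (g y)⁻¹ a b) x =
      -∑ i, ∑ j, (g x)⁻¹ a i * pd k (fun y => g y i j) x * (g x)⁻¹ j b := by
  have hd : ∀ i j, DifferentiableAt ℝ (fun y => g y i j) x := fun i j =>
    (h.smAt hx i j).differentiableAt (by norm_num)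
  have hdi : ∀ i j, DifferentiableAt ℝ (fun y => (g y)⁻¹ i j) x := fun i j =>
    (h.invAt hx i j).differentiableAt (by norm_num)
  -- derivative of `g * g⁻¹ = 1`
  have h1 : ∀ i, ∑ j, (g x i j * pd k (fun y => (g y)⁻¹ j b) x +
      pd k (fun y => g y i j) x * (g x)⁻¹ j b) = 0 := by
    intro i
    have h2 : pd k (fun y => ∑ j, g y i j * (g y)⁻¹ j b) x = 0 := by
      have : (fun y => ∑ j, g y i j * (g y)⁻¹ j b) =ᶠ[𝓝 x] fun _ => (1 : Matrix (Fin n) (Fin n) ℝ) i b := by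
        filter_upwards [h.op.mem_nhds hx] with y hy
        rw [← h.mul_inv hy, Matrix.mul_apply]
      rw [pd_congr this, pd_const]
    have h2' := pd_sum Finset.univ (f := fun j y => g y i j * (g y)⁻¹ j b) (x := x)
      (fun j _ => (hd i j).mul (hdi j b)) k
    rw [← h2, h2']
    refine Finset.sum_congr rfl fun j _ => ?_
    exact (pd_mul (hd i j) (hdi j b) k).symm
  have h3 : ∑ i, (g x)⁻¹ a i * ∑ j, (g x i j * pd k (fun y => (g y)⁻¹ j b) x +
      pd k (fun y => g y i j) x * (g x)⁻¹ j b) = 0 := by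
    simp only [h1, mul_zero, Finset.sum_const_zero]
  have h4 : ∑ i, (g x)⁻¹ a i * ∑ j, (g x i j * pd k (fun y => (g y)⁻¹ j b) x +
      pd k (fun y => g y i j) x * (g x)⁻¹ j b) =
      (∑ j, (∑ i, (g x)⁻¹ a i * g x i j) * pd k (fun y => (g y)⁻¹ j b) x) +
      ∑ i, ∑ j, (g x)⁻¹ a i * pd k (fun y => g y i j) x * (g x)⁻¹ j b := by
    simp only [Finset.sum_add_distrib, mul_add, Finset.mul_sum, Finset.sum_mul]
    congr 1
    · rw [Finset.sum_comm]
      refine Finset.sum_congr rfl fun i _ => Finset.sum_congr rfl fun j _ => by ring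
    · refine Finset.sum_congr rfl fun i _ => Finset.sum_congr rfl fun j _ => by ring
  have h5 : ∀ j, ∑ i, (g x)⁻¹ a i * g x i j = if a = j then 1 else 0 := by
    intro j
    rw [← Matrix.mul_apply, h.inv_mul hx, Matrix.one_apply]
  rw [h4] at h3
  simp only [h5, ite_mul, one_mul, zero_mul, Finset.sum_ite_eq, Finset.mem_univ, if_true] at h3
  linarith

/-- Metric compatibility in terms of the inverse metric. -/
lemma pd_inv_chr {x : E n} (hx : x ∈ U) (k i j : Fin n) :
    pd k (fun y => (g y)⁻¹ i j) x =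
      -∑ l, (chr g i k l x * (g x)⁻¹ l j + chr g j k l x * (g x)⁻¹ l i) := by
  rw [h.pd_inv hx]
  congr 1
  unfold chr
  have e1 : ∑ l, (1 / 2 * ∑ m, (g x)⁻¹ i m * (pd k (fun y => g y l m) x +
      pd l (fun y => g y k m) x - pd m (fun y => g y k l) x)) * (g x)⁻¹ l j =
      ∑ m, ∑ l, 1 / 2 * ((g x)⁻¹ i m * (pd k (fun y => g y m l) x +
      pd l (fun y => g y k m) x - pd m (fun y => g y k l) x) * (g x)⁻¹ l j) := by
    rw [Finset.sum_comm]
    refine Finset.sum_congr rfl fun l _ => ?_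
    rw [Finset.mul_sum, Finset.sum_mul]
    refine Finset.sum_congr rfl fun m _ => ?_
    rw [h.pd_symm hx k l m]
    ring
  have e2 : ∑ l, (1 / 2 * ∑ m, (g x)⁻¹ j m * (pd k (fun y => g y l m) x +
      pd l (fun y => g y k m) x - pd m (fun y => g y k l) x)) * (g x)⁻¹ l i =
      ∑ m, ∑ l, 1 / 2 * ((g x)⁻¹ i m * (pd k (fun y => g y m l) x +
      pd m (fun y => g y k l) x - pd l (fun y => g y k m) x) * (g x)⁻¹ l j) := by
    refine Finset.sum_congr rfl fun m _ => ?_
    rw [Finset.mul_sum, Finset.sum_mul]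
    refine Finset.sum_congr rfl fun l _ => ?_
    rw [h.inv_symm hx j l, h.inv_symm hx m i]
    ring
  rw [Finset.sum_add_distrib, e1, e2, ← Finset.sum_add_distrib]
  refine Finset.sum_congr rfl fun m _ => ?_
  rw [← Finset.sum_add_distrib]
  refine Finset.sum_congr rfl fun l _ => ?_
  ring

lemma chr_symm {x : E n} (hx : x ∈ U) (k i j : Fin n) : chr g k i j x = chr g k j i x := by
  unfold chr
  congr 1
  refine Finset.sum_congr rfl fun l _ => ?_
  rw [h.pd_symm hx l i j]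
  ring

/-- the contraction `gⁱʲ Γᵏⱼₗ Γˡᵢₖ` -/
lemma quad {x : E n} (hx : x ∈ U) :
    ∑ i, ∑ j, (g x)⁻¹ i j * ∑ k, ∑ l, chr g k j l x * chr g l i k x =
      -(1 / 2) * ∑ k, ∑ i, ∑ j, pd k (fun y => (g y)⁻¹ i j) x * chr g k i j x := by
  have h1 : ∑ k, ∑ i, ∑ j, pd k (fun y => (g y)⁻¹ i j) x * chr g k i j x =
      -(∑ k, ∑ i, ∑ j, ∑ l, chr g i k l x * (g x)⁻¹ l j * chr g k i j x) -
      (∑ k, ∑ i, ∑ j, ∑ l, chr g j k l x * (g x)⁻¹ l i * chr g k i j x) := by
    rw [← Finset.sum_neg_distrib, ← Finset.sum_sub_distrib]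
    refine Finset.sum_congr rfl fun k _ => ?_
    rw [← Finset.sum_neg_distrib, ← Finset.sum_sub_distrib]
    refine Finset.sum_congr rfl fun i _ => ?_
    rw [← Finset.sum_neg_distrib, ← Finset.sum_sub_distrib]
    refine Finset.sum_congr rfl fun j _ => ?_
    rw [h.pd_inv_chr hx, Finset.sum_add_distrib, neg_add, add_mul, neg_mul, neg_mul,
      Finset.sum_mul, Finset.sum_mul, sub_eq_add_neg]
  have h2 : ∑ k, ∑ i, ∑ j, ∑ l, chr g i k l x * (g x)⁻¹ l j * chr g k i j x =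
      ∑ i, ∑ j, (g x)⁻¹ i j * ∑ k, ∑ l, chr g k j l x * chr g l i k x := by
    have e : ∀ i j, (g x)⁻¹ i j * ∑ k, ∑ l, chr g k j l x * chr g l i k x =
        ∑ k, ∑ l, chr g k j l x * chr g l i k x * (g x)⁻¹ i j := by
      intro i j
      rw [Finset.mul_sum]
      refine Finset.sum_congr rfl fun k _ => ?_
      rw [Finset.mul_sum]
      exact Finset.sum_congr rfl fun l _ => by ring
    simp only [e]
    -- LHS: Γ^i_{kl} g^{lj} Γ^k_{ij};  RHS : Γ^k_{jl} Γ^l_{ik} g^{ij}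
    calc ∑ k, ∑ i, ∑ j, ∑ l, chr g i k l x * (g x)⁻¹ l j * chr g k i j x
        = ∑ k, ∑ i, ∑ l, ∑ j, chr g i k l x * (g x)⁻¹ l j * chr g k i j x :=
          Finset.sum_congr rfl fun k _ => Finset.sum_congr rfl fun i _ => Finset.sum_comm
      _ = ∑ k, ∑ l, ∑ i, ∑ j, chr g i k l x * (g x)⁻¹ l j * chr g k i j x :=
          Finset.sum_congr rfl fun k _ => Finset.sum_comm
      _ = ∑ l, ∑ k, ∑ i, ∑ j, chr g i k l x * (g x)⁻¹ l j * chr g k i j x := Finset.sum_comm
      _ = ∑ l, ∑ k, ∑ j, ∑ i, chr g i k l x * (g x)⁻¹ l j * chr g k i j x :=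
          Finset.sum_congr rfl fun l _ => Finset.sum_congr rfl fun k _ => Finset.sum_comm
      _ = ∑ l, ∑ j, ∑ k, ∑ i, chr g i k l x * (g x)⁻¹ l j * chr g k i j x :=
          Finset.sum_congr rfl fun l _ => Finset.sum_comm
      _ = ∑ i, ∑ j, ∑ k, ∑ l, chr g k j l x * chr g l i k x * (g x)⁻¹ i j := by
          refine Finset.sum_congr rfl fun i _ => Finset.sum_congr rfl fun j _ =>
            Finset.sum_congr rfl fun k _ => Finset.sum_congr rfl fun l _ => ?_
          rw [h.chr_symm hx l k i, h.chr_symm hx k l j]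
          ring
  have h3 : ∑ k, ∑ i, ∑ j, ∑ l, chr g j k l x * (g x)⁻¹ l i * chr g k i j x =
      ∑ k, ∑ i, ∑ j, ∑ l, chr g i k l x * (g x)⁻¹ l j * chr g k i j x := by
    refine Finset.sum_congr rfl fun k _ => ?_
    rw [Finset.sum_comm]
    refine Finset.sum_congr rfl fun i _ => Finset.sum_congr rfl fun j _ =>
      Finset.sum_congr rfl fun l _ => ?_
    rw [h.chr_symm hx k j i]
  rw [h1, h3, h2]
  ring

/-- **The scalar curvature as a divergence plus a quadratic contraction.** -/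
theorem scal_eq {x : E n} (hx : x ∈ U) :
    scal g x = ∑ k, pd k (Vc g k) x - ∑ i, ∑ j, (g x)⁻¹ i j * pd j (Lc g i) x +
      ∑ l, Lc g l x * Vc g l x -
      (1 / 2) * ∑ k, ∑ i, ∑ j, pd k (fun y => (g y)⁻¹ i j) x * chr g k i j x := by
  have hci : ∀ i j, DifferentiableAt ℝ (fun y => (g y)⁻¹ i j) x := fun i j =>
    (h.invAt hx i j).differentiableAt (by norm_num)
  have hcc : ∀ k i j, DifferentiableAt ℝ (chr g k i j) x := fun k i j =>
    (h.chrAt hx k i j).differentiableAt (by norm_num)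
  have hV : ∀ k, pd k (Vc g k) x = ∑ i, ∑ j, ((g x)⁻¹ i j * pd k (chr g k i j) x +
      pd k (fun y => (g y)⁻¹ i j) x * chr g k i j x) := by
    intro k
    unfold Vc
    have e1 := pd_sum Finset.univ (f := fun i y => ∑ j, (g y)⁻¹ i j * chr g k i j y) (x := x)
      (fun i _ => DifferentiableAt.fun_sum fun j _ => (hci i j).mul (hcc k i j)) k
    refine e1.trans (Finset.sum_congr rfl fun i _ => ?_)
    have e2 := pd_sum Finset.univ (f := fun j y => (g y)⁻¹ i j * chr g k i j y) (x := x)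
      (fun j _ => (hci i j).mul (hcc k i j)) k
    refine e2.trans (Finset.sum_congr rfl fun j _ => ?_)
    exact pd_mul (hci i j) (hcc k i j) k
  have hL : ∀ i j, pd j (Lc g i) x = ∑ k, pd j (chr g k i k) x := by
    intro i j
    unfold Lc
    rw [pd_sum _ (fun k _ => hcc k i k)]
  have hLV : ∑ l, Lc g l x * Vc g l x =
      ∑ i, ∑ j, (g x)⁻¹ i j * ∑ k, ∑ l, chr g k k l x * chr g l i j x := by
    unfold Lc Vc
    calc ∑ l, (∑ k, chr g k l k x) * (∑ i, ∑ j, (g x)⁻¹ i j * chr g l i j x)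
        = ∑ l, ∑ i, ∑ j, ∑ k, (g x)⁻¹ i j * (chr g k k l x * chr g l i j x) := by
          refine Finset.sum_congr rfl fun l _ => ?_
          rw [Finset.mul_sum]
          refine Finset.sum_congr rfl fun i _ => ?_
          rw [Finset.mul_sum]
          refine Finset.sum_congr rfl fun j _ => ?_
          rw [Finset.sum_mul]
          refine Finset.sum_congr rfl fun k _ => ?_
          rw [h.chr_symm hx k l k]
          ring
      _ = ∑ i, ∑ l, ∑ j, ∑ k, (g x)⁻¹ i j * (chr g k k l x * chr g l i j x) := Finset.sum_comm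
      _ = ∑ i, ∑ j, ∑ l, ∑ k, (g x)⁻¹ i j * (chr g k k l x * chr g l i j x) :=
          Finset.sum_congr rfl fun i _ => Finset.sum_comm
      _ = ∑ i, ∑ j, ∑ k, ∑ l, (g x)⁻¹ i j * (chr g k k l x * chr g l i j x) :=
          Finset.sum_congr rfl fun i _ => Finset.sum_congr rfl fun j _ => Finset.sum_comm
      _ = _ := by
          refine Finset.sum_congr rfl fun i _ => Finset.sum_congr rfl fun j _ => ?_
          rw [Finset.mul_sum]
          refine Finset.sum_congr rfl fun k _ => ?_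
          rw [Finset.mul_sum]
  have hq := h.quad hx
  unfold scal
  have hexp : ∑ i, ∑ j, (g x)⁻¹ i j * (∑ k, (pd k (chr g k i j) x - pd j (chr g k i k) x +
      ∑ l, (chr g k k l x * chr g l i j x - chr g k j l x * chr g l i k x))) =
      (∑ i, ∑ j, (g x)⁻¹ i j * ∑ k, pd k (chr g k i j) x) -
      (∑ i, ∑ j, (g x)⁻¹ i j * ∑ k, pd j (chr g k i k) x) +
      (∑ i, ∑ j, (g x)⁻¹ i j * ∑ k, ∑ l, chr g k k l x * chr g l i j x) -
      (∑ i, ∑ j, (g x)⁻¹ i j * ∑ k, ∑ l, chr g k j l x * chr g l i k x) := by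
    rw [← Finset.sum_sub_distrib, ← Finset.sum_add_distrib, ← Finset.sum_sub_distrib]
    refine Finset.sum_congr rfl fun i _ => ?_
    rw [← Finset.sum_sub_distrib, ← Finset.sum_add_distrib, ← Finset.sum_sub_distrib]
    refine Finset.sum_congr rfl fun j _ => ?_
    rw [← mul_sub, ← mul_add, ← mul_sub]
    congr 1
    rw [← Finset.sum_sub_distrib, ← Finset.sum_add_distrib, ← Finset.sum_sub_distrib]
    refine Finset.sum_congr rfl fun k _ => ?_
    rw [Finset.sum_sub_distrib]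
    ring
  rw [hexp, hq, ← hLV]
  simp only [hL]
  have hVs : ∑ k, pd k (Vc g k) x = (∑ i, ∑ j, (g x)⁻¹ i j * ∑ k, pd k (chr g k i j) x) +
      ∑ k, ∑ i, ∑ j, pd k (fun y => (g y)⁻¹ i j) x * chr g k i j x := by
    simp only [hV]
    calc ∑ k, ∑ i, ∑ j, ((g x)⁻¹ i j * pd k (chr g k i j) x +
          pd k (fun y => (g y)⁻¹ i j) x * chr g k i j x)
        = (∑ k, ∑ i, ∑ j, (g x)⁻¹ i j * pd k (chr g k i j) x) +
          ∑ k, ∑ i, ∑ j, pd k (fun y => (g y)⁻¹ i j) x * chr g k i j x := by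
          rw [← Finset.sum_add_distrib]
          refine Finset.sum_congr rfl fun k _ => ?_
          rw [← Finset.sum_add_distrib]
          refine Finset.sum_congr rfl fun i _ => ?_
          rw [← Finset.sum_add_distrib]
      _ = _ := by
          congr 1
          rw [Finset.sum_comm]
          refine Finset.sum_congr rfl fun i _ => ?_
          rw [Finset.sum_comm]
          refine Finset.sum_congr rfl fun j _ => ?_
          rw [Finset.mul_sum]
  rw [hVs]
  ring

/-- `Lᵢ = (1/2) gᵏˡ ∂ᵢ gₖₗ`. -/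
theorem Lc_eq {x : E n} (hx : x ∈ U) (i : Fin n) :
    Lc g i x = (1 / 2) * ∑ k, ∑ l, (g x)⁻¹ k l * pd i (fun y => g y k l) x := by
  unfold Lc chr
  rw [← Finset.mul_sum]
  congr 1
  have h1 : ∑ k, ∑ l, (g x)⁻¹ k l * pd k (fun y => g y i l) x =
      ∑ k, ∑ l, (g x)⁻¹ k l * pd l (fun y => g y i k) x := by
    rw [Finset.sum_comm]
    refine Finset.sum_congr rfl fun k _ => Finset.sum_congr rfl fun l _ => ?_
    rw [h.inv_symm hx l k]
  have h2 : ∑ k, ∑ l, (g x)⁻¹ k l * (pd i (fun y => g y k l) x + pd k (fun y => g y i l) x -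
      pd l (fun y => g y i k) x) = (∑ k, ∑ l, (g x)⁻¹ k l * pd i (fun y => g y k l) x) +
      (∑ k, ∑ l, (g x)⁻¹ k l * pd k (fun y => g y i l) x) -
      ∑ k, ∑ l, (g x)⁻¹ k l * pd l (fun y => g y i k) x := by
    rw [← Finset.sum_add_distrib, ← Finset.sum_sub_distrib]
    refine Finset.sum_congr rfl fun k _ => ?_
    rw [← Finset.sum_add_distrib, ← Finset.sum_sub_distrib]
    refine Finset.sum_congr rfl fun l _ => ?_
    ring
  rw [h2, h1]
  ring

/-- `Vᵏ = - gᵏʲ Lⱼ - ∂ⱼ gᵏʲ`. -/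
theorem Vc_eq {x : E n} (hx : x ∈ U) (k : Fin n) :
    Vc g k x = -∑ j, (g x)⁻¹ k j * Lc g j x - ∑ j, pd j (fun y => (g y)⁻¹ k j) x := by
  have h1 : ∑ j, pd j (fun y => (g y)⁻¹ k j) x =
      -∑ l, ∑ a, ∑ b, (g x)⁻¹ k l * ((g x)⁻¹ a b * pd a (fun y => g y b l) x) := by
    have e : ∀ j, pd j (fun y => (g y)⁻¹ k j) x =
        -∑ l, ∑ b, (g x)⁻¹ k l * ((g x)⁻¹ j b * pd j (fun y => g y b l) x) := by
      intro j
      rw [h.pd_inv hx]
      congr 1
      refine Finset.sum_congr rfl fun l _ => Finset.sum_congr rfl fun b _ => ?_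
      rw [h.inv_symm hx b j, h.pd_symm hx j l b]
      ring
    simp only [e, Finset.sum_neg_distrib]
    congr 1
    rw [Finset.sum_comm]
  have h2 : Vc g k x = ∑ l, ∑ a, ∑ b, (g x)⁻¹ k l * ((g x)⁻¹ a b * pd a (fun y => g y b l) x) -
      ∑ j, (g x)⁻¹ k j * Lc g j x := by
    have e1 : Vc g k x = ∑ l, (g x)⁻¹ k l * ((1 / 2) * ∑ a, ∑ b, (g x)⁻¹ a b *
        (pd a (fun y => g y b l) x + pd b (fun y => g y a l) x - pd l (fun y => g y a b) x)) := by
      unfold Vc chr
      calc ∑ i, ∑ j, (g x)⁻¹ i j * (1 / 2 * ∑ l, (g x)⁻¹ k l * (pd i (fun y => g y j l) x +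
            pd j (fun y => g y i l) x - pd l (fun y => g y i j) x))
          = ∑ i, ∑ j, ∑ l, (g x)⁻¹ k l * (1 / 2 * ((g x)⁻¹ i j * (pd i (fun y => g y j l) x +
            pd j (fun y => g y i l) x - pd l (fun y => g y i j) x))) := by
            refine Finset.sum_congr rfl fun i _ => Finset.sum_congr rfl fun j _ => ?_
            rw [Finset.mul_sum, Finset.mul_sum]
            exact Finset.sum_congr rfl fun l _ => by ring
        _ = ∑ i, ∑ l, ∑ j, (g x)⁻¹ k l * (1 / 2 * ((g x)⁻¹ i j * (pd i (fun y => g y j l) x +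
            pd j (fun y => g y i l) x - pd l (fun y => g y i j) x))) :=
            Finset.sum_congr rfl fun i _ => Finset.sum_comm
        _ = ∑ l, ∑ i, ∑ j, (g x)⁻¹ k l * (1 / 2 * ((g x)⁻¹ i j * (pd i (fun y => g y j l) x +
            pd j (fun y => g y i l) x - pd l (fun y => g y i j) x))) := Finset.sum_comm
        _ = _ := by
            refine Finset.sum_congr rfl fun l _ => ?_
            rw [Finset.mul_sum, Finset.mul_sum]
            refine Finset.sum_congr rfl fun a _ => ?_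
            rw [Finset.mul_sum, Finset.mul_sum]
    rw [e1, ← Finset.sum_sub_distrib]
    refine Finset.sum_congr rfl fun l _ => ?_
    rw [h.Lc_eq hx l]
    have e2 : ∑ a, ∑ b, (g x)⁻¹ a b * pd b (fun y => g y a l) x =
        ∑ a, ∑ b, (g x)⁻¹ a b * pd a (fun y => g y b l) x := by
      rw [Finset.sum_comm]
      refine Finset.sum_congr rfl fun a _ => Finset.sum_congr rfl fun b _ => ?_
      rw [h.inv_symm hx b a]
    have e3 : ∑ a, ∑ b, (g x)⁻¹ a b *
        (pd a (fun y => g y b l) x + pd b (fun y => g y a l) x - pd l (fun y => g y a b) x) =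
        2 * (∑ a, ∑ b, (g x)⁻¹ a b * pd a (fun y => g y b l) x) -
        ∑ a, ∑ b, (g x)⁻¹ a b * pd l (fun y => g y a b) x := by
      rw [two_mul]
      nth_rewrite 2 [← e2]
      rw [← Finset.sum_add_distrib, ← Finset.sum_sub_distrib]
      refine Finset.sum_congr rfl fun a _ => ?_
      rw [← Finset.sum_add_distrib, ← Finset.sum_sub_distrib]
      refine Finset.sum_congr rfl fun b _ => ?_
      ring
    rw [e3]
    have e4 : ∑ a, ∑ b, (g x)⁻¹ k l * ((g x)⁻¹ a b * pd a (fun y => g y b l) x) =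
        (g x)⁻¹ k l * ∑ a, ∑ b, (g x)⁻¹ a b * pd a (fun y => g y b l) x := by
      rw [Finset.mul_sum]
      refine Finset.sum_congr rfl fun a _ => ?_
      rw [Finset.mul_sum]
    rw [e4]
    ring
  rw [h2, h1]
  ring

/-- The quadratic term through first derivatives of `g` and `g⁻¹`. -/
theorem quad_eq {x : E n} (hx : x ∈ U) :
    ∑ k, ∑ i, ∑ j, pd k (fun y => (g y)⁻¹ i j) x * chr g k i j x =
      (∑ k, ∑ l, (g x)⁻¹ k l * ∑ i, ∑ j, pd k (fun y => (g y)⁻¹ i j) x *
        pd i (fun y => g y j l) x) -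
      (1 / 2) * ∑ k, ∑ l, (g x)⁻¹ k l * ∑ i, ∑ j, pd k (fun y => (g y)⁻¹ i j) x *
        pd l (fun y => g y i j) x := by
  rw [Finset.mul_sum, ← Finset.sum_sub_distrib]
  refine Finset.sum_congr rfl fun k _ => ?_
  have hs : ∀ i j, pd k (fun y => (g y)⁻¹ i j) x = pd k (fun y => (g y)⁻¹ j i) x := by
    intro i j
    refine pd_congr ?_ k
    filter_upwards [h.op.mem_nhds hx] with y hy
    exact h.inv_symm hy i j
  have e1 : ∑ i, ∑ j, pd k (fun y => (g y)⁻¹ i j) x * chr g k i j x =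
      ∑ l, (g x)⁻¹ k l * ((1 / 2) * ∑ i, ∑ j, pd k (fun y => (g y)⁻¹ i j) x *
        (pd i (fun y => g y j l) x + pd j (fun y => g y i l) x - pd l (fun y => g y i j) x)) := by
    unfold chr
    calc ∑ i, ∑ j, pd k (fun y => (g y)⁻¹ i j) x * (1 / 2 * ∑ l, (g x)⁻¹ k l *
          (pd i (fun y => g y j l) x + pd j (fun y => g y i l) x - pd l (fun y => g y i j) x))
        = ∑ i, ∑ j, ∑ l, (g x)⁻¹ k l * (1 / 2 * (pd k (fun y => (g y)⁻¹ i j) x *
          (pd i (fun y => g y j l) x + pd j (fun y => g y i l) x - pd l (fun y => g y i j) x))) := by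
          refine Finset.sum_congr rfl fun i _ => Finset.sum_congr rfl fun j _ => ?_
          rw [Finset.mul_sum, Finset.mul_sum]
          exact Finset.sum_congr rfl fun l _ => by ring
      _ = ∑ i, ∑ l, ∑ j, (g x)⁻¹ k l * (1 / 2 * (pd k (fun y => (g y)⁻¹ i j) x *
          (pd i (fun y => g y j l) x + pd j (fun y => g y i l) x - pd l (fun y => g y i j) x))) :=
          Finset.sum_congr rfl fun i _ => Finset.sum_comm
      _ = ∑ l, ∑ i, ∑ j, (g x)⁻¹ k l * (1 / 2 * (pd k (fun y => (g y)⁻¹ i j) x *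
          (pd i (fun y => g y j l) x + pd j (fun y => g y i l) x - pd l (fun y => g y i j) x))) :=
          Finset.sum_comm
      _ = _ := by
          refine Finset.sum_congr rfl fun l _ => ?_
          rw [Finset.mul_sum, Finset.mul_sum]
          refine Finset.sum_congr rfl fun a _ => ?_
          rw [Finset.mul_sum, Finset.mul_sum]
  rw [e1, Finset.mul_sum, ← Finset.sum_sub_distrib]
  refine Finset.sum_congr rfl fun l _ => ?_
  have e2 : ∑ i, ∑ j, pd k (fun y => (g y)⁻¹ i j) x * pd j (fun y => g y i l) x =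
      ∑ i, ∑ j, pd k (fun y => (g y)⁻¹ i j) x * pd i (fun y => g y j l) x := by
    rw [Finset.sum_comm]
    refine Finset.sum_congr rfl fun a _ => Finset.sum_congr rfl fun b _ => ?_
    rw [hs b a]
  have e3 : ∑ i, ∑ j, pd k (fun y => (g y)⁻¹ i j) x *
        (pd i (fun y => g y j l) x + pd j (fun y => g y i l) x - pd l (fun y => g y i j) x) =
      2 * (∑ i, ∑ j, pd k (fun y => (g y)⁻¹ i j) x * pd i (fun y => g y j l) x) -
      ∑ i, ∑ j, pd k (fun y => (g y)⁻¹ i j) x * pd l (fun y => g y i j) x := by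
    rw [two_mul]
    nth_rewrite 2 [← e2]
    rw [← Finset.sum_add_distrib, ← Finset.sum_sub_distrib]
    refine Finset.sum_congr rfl fun a _ => ?_
    rw [← Finset.sum_add_distrib, ← Finset.sum_sub_distrib]
    refine Finset.sum_congr rfl fun b _ => ?_
    ring
  rw [e3]
  ring

end SmoothMetric

end Vale.Agent.P366.T2
end
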