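import Vale.Agent.P366.T2.A765.RgSide

/-!
# The scalar curvature of the data
-/

open MeasureTheory Metric Filter Topology Set
open scoped BigOperators ContDiff ENNReal

noncomputable section
namespace Vale.Agent.P366.T2
open Vale.Agent.P366.Stmt

variable {n : ℕ}

namespace Data

variable (D : Data n)

lemma TW_sum (r : ℝ) : D.TW r = ∑ a, D.iq r a a := rfl

lemma X3_sum (r : ℝ) : ∑ a, D.diq r a a = -D.X3 r := by
  unfold X3 tr3m dw; ring

/-- derivative of `vf` -/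
def dvf (r : ℝ) : ℝ :=
  -((deriv D.elf r * D.p r - D.elf r * deriv D.p r) / D.p r ^ 2) +
    (((deriv (deriv D.p) r * D.p r ^ 2 - deriv D.p r * (2 * D.p r * deriv D.p r)) /
      (D.p r ^ 2) ^ 2) * r - deriv D.p r / D.p r ^ 2 * 1) / r ^ 2 -
    ((n : ℝ) - 1) * D.du2 r +
    ((-D.X3 r - 3 * D.df2 r) * r ^ 2 - (D.TW r - 3 / D.al r) * (2 * r)) / (r ^ 2) ^ 2

lemma vf_der {r : ℝ} (hr : D.R < r) : HasDerivAt D.vf (D.dvf r) r := by
  have h0 : 0 < r := D.hR.trans hr
  have hal := (D.al_pos _ hr.le).ne'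
  have hp := (D.p_pos _ hr.le).ne'
  have h1 : HasDerivAt (fun t => -(D.elf t / D.p t))
      (-((deriv D.elf r * D.p r - D.elf r * deriv D.p r) / D.p r ^ 2)) r :=
    ((D.elf_der hr.le).div (D.p_der r) hp).neg
  have h2a : HasDerivAt (fun t => D.p t ^ 2) (2 * D.p r * deriv D.p r) r := by
    have := (D.p_der r).fun_pow 2
    simpa using this
  have h2b : HasDerivAt (fun t => deriv D.p t / D.p t ^ 2)
      ((deriv (deriv D.p) r * D.p r ^ 2 - deriv D.p r * (2 * D.p r * deriv D.p r)) /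
      (D.p r ^ 2) ^ 2) r := (D.dp_der r).div h2a (pow_ne_zero 2 hp)
  have h2 : HasDerivAt (fun t => deriv D.p t / D.p t ^ 2 / t)
      ((((deriv (deriv D.p) r * D.p r ^ 2 - deriv D.p r * (2 * D.p r * deriv D.p r)) /
      (D.p r ^ 2) ^ 2) * r - deriv D.p r / D.p r ^ 2 * 1) / r ^ 2) r :=
    h2b.div (hasDerivAt_id r) h0.ne'
  have h3 : HasDerivAt (fun t => ((n : ℝ) - 1) * D.u2 t) (((n : ℝ) - 1) * D.du2 r) r :=
    (D.u2_der hr.le).const_mul _
  have h4a : HasDerivAt (fun t => ∑ a, D.iq t a a) (-D.X3 r) r := by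
    rw [← D.X3_sum]
    exact HasDerivAt.fun_sum fun a _ => D.iq_der hr a a
  have h4b : HasDerivAt (fun t => 3 / D.al t) (3 * D.df2 r) r := by
    have := (D.f2_der hr.le).const_mul 3
    have e : (fun t => 3 / D.al t) = fun t => 3 * D.f2 t := by
      funext t; unfold f2; ring
    rw [e]
    exact this
  have h4 : HasDerivAt (fun t => ((∑ a, D.iq t a a) - 3 / D.al t) / t ^ 2)
      (((-D.X3 r - 3 * D.df2 r) * r ^ 2 - (D.TW r - 3 / D.al r) * (2 * r)) / (r ^ 2) ^ 2) r :=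
    (h4a.sub h4b).div (sq_der r) (pow_ne_zero 2 h0.ne')
  exact ((h1.add h2).sub h3).add h4

end Data

/-- The final algebraic identity. -/
lemma final_id (n r al p ald pd pdd elf elf' X1 X2 X3 X4 TW TQ TW2 : ℝ) (hr : r ≠ 0)
    (hal : al ≠ 0) (hp : p ≠ 0)
    (helf : elf = (1 / 2) * ((n - 4) * (ald / al) + pd / p + X1) / r)
    (u u' fd fd' c c' sst sW stW trs trst stWs stc' s'tc s'Wtc trtc' tctc' tcW τ trC' prCC prGC
      vf dvf du2 Ef dEf : ℝ)
    (hu : u = (p - al) / r ^ 2) (hu' : u' = (1 / p - 1 / al) / r ^ 2) (hfd : fd = ald / r)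
    (hfd' : fd' = -ald / al ^ 2 / r) (hc : c = pd / r - 2 * u)
    (hc' : c' = -pd / p ^ 2 / r - 2 * u')
    (hsst : sst = (6 - al * TW - TQ / al) / (r ^ 2) ^ 2)
    (hsW : sW = (3 - al * TW) / r ^ 2)
    (hstW : stW = (TW2 - TW / al) / r ^ 2)
    (htrs : trs = (TQ - 3 * al) / r ^ 2)
    (htrst : trst = (TW - 3 / al) / r ^ 2)
    (hstWs : stWs = (2 * TW - al * TW2 - 3 / al) / (r ^ 2) ^ 2)
    (hstc' : stc' = (-X1 + al * X3) / r ^ 2 / r - 2 * sst)
    (hs'tc : s'tc = (X1 - X4 / al) / r ^ 2 / r - 2 * sst)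
    (hs'Wtc : s'Wtc = (X3 - X1 / al) / r ^ 2 / r - 2 * stWs)
    (htrtc' : trtc' = -X3 / r - 2 * trst)
    (htctc' : tctc' = -X2 / r ^ 2 - 2 * ((X1 - X4 / al) / r ^ 2 / r) -
      2 * ((-X1 + al * X3) / r ^ 2 / r) + 4 * sst)
    (htcW : tcW = X1 / r - 2 * sW)
    (hτ : τ = (n - 4) / al + 1 / p + TW)
    (htrC' : trC' = (n - 4) * fd' + c' + trtc')
    (hprCC : prCC = (n - 4) * fd' * fd + c' * c + tctc')
    (hprGC : prGC = fd * ((n - 4) / al) + (1 / p) * c + tcW)
    (hvf : vf = -(elf / p) + pd / p ^ 2 / r - (n - 1) * u' + (TW - 3 / al) / r ^ 2)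
    (hdu2 : du2 = ((-pd / p ^ 2 - -ald / al ^ 2) * r ^ 2 - (1 / p - 1 / al) * (2 * r)) /
      (r ^ 2) ^ 2)
    (hdvf : dvf = -((elf' * p - elf * pd) / p ^ 2) +
      (((pdd * p ^ 2 - pd * (2 * p * pd)) / (p ^ 2) ^ 2) * r - pd / p ^ 2 * 1) / r ^ 2 -
      (n - 1) * du2 + ((-X3 - 3 * (-ald / al ^ 2)) * r ^ 2 - (TW - 3 / al) * (2 * r)) /
      (r ^ 2) ^ 2)
    (hEf : Ef = (n - 1) / r + r * elf - pd / (2 * p))
    (hdEf : dEf = -(n - 1) / r ^ 2 + (elf + r * elf') -
      (pdd * (2 * p) - pd * (2 * pd)) / (2 * p) ^ 2) :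
    (r * dvf + n * vf) - (elf' * r / p + elf * τ) + elf * vf * r ^ 2 +
      r ^ 2 * ((1 / p) * prCC / 4 - (1 / p) * c * c' / 2 + (1 / p) * stc' + (1 / p) * s'tc / 2 +
      s'Wtc / 2 - u * (1 / p) * trC' / 2 - u' * prGC / 2 - u * u' * (1 / p) - u' * sW -
      u * (1 / p) * trst + (τ + 1 / p) * sst -
      (trst * (trs * TW - sW) - sst * TW - stW * trs + 2 * stWs)) =
    (-TQ * (TW ^ 2 - TW2) + 8 * TW) / r ^ 2 +
      (n - 4) * (n - 4 + 8) / (r ^ 2 * al) - (n - 4) * TQ / (r ^ 2 * al ^ 2) -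
      ((n - 4) * (1 / r + ald / (2 * al)) ^ 2 + (3 / r ^ 2 + X1 / r + X2 / 4)) / p -
      Ef ^ 2 / p - 2 * ((dEf - Ef * pd / (2 * p)) / p) := by
  subst hdEf hEf hdvf hdu2 hvf hprGC hprCC htrC' hτ htcW htctc' htrtc' hs'Wtc hs'tc hstc' hstWs
    htrst htrs hstW hsW hsst hc' hc hfd' hfd hu' hu helf
  field_simp
  ring

variable {D : Data n} {g K : Field n}

lemma xUx (D : Data n) {x : E n} (hx : x ≠ 0) :
    ∑ i, ∑ j, D.U x i j * (x i * x j) = len x ^ 2 / D.p (len x) := by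
  have h := (D.G_adm' hx).xGx
  have e : ∑ i, ∑ j, D.U x i j * (x i * x j) = dt (xv x) (mv (D.G x) (xv x)) := by
    rw [← dt_mv]; rfl
  rw [e, h]
  ring

/-- **The scalar curvature of `Sp(m)`-invariant metrics.** -/
theorem scal_eq (D : Data n) {g K : Field n} (h : Fits D g K) {x : E n} (hx : D.R < len x) :
    Stmt.scal g x = D.Rg (len x) := by
  have hx0 := len_pos_of hx.le
  have hr : 0 < len x := D.hR.trans hx
  have hal := (D.al_pos _ hx.le).ne'
  have hp := (D.p_pos _ hx.le).ne'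
  have hsym : ∀ y ∈ {y : E n | D.R < len y}, ∀ i j, g y i j = g y j i := by
    intro y hy i j
    rw [h.hg y (le_of_lt hy), h.hg y (le_of_lt hy)]
    exact D.Q.ten_symm _ _ _ _ D.q_symm y i j
  have hdet : ∀ y ∈ {y : E n | D.R < len y}, (mat g y).det ≠ 0 := by
    intro y hy
    have h1 := congrArg Matrix.det (g_mul_U h (le_of_lt hy))
    rw [Matrix.det_mul, Matrix.det_one] at h1
    exact left_ne_zero_of_mul_eq_one h1
  have h0 := scal_div (isOpen_U' D) (fun i j => (h.smooth i j).1) hsym hdet hx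
  -- divergence of `V`
  have hV : ∑ k, Stmt.pd k (Vg g k) x = len x * D.dvf (len x) + n * D.vf (len x) := by
    have h1 : ∀ k, Stmt.pd k (Vg g k) x =
        D.dvf (len x) / len x * x k * x k + D.vf (len x) := by
      intro k
      have h2 := (HP.radial hx0 (D.vf_der hx) k).mul (HP.coord k k x)
      have h3 : Vg g k =ᶠ[𝓝 x] fun y => D.vf (len y) * y k := by
        filter_upwards [(isOpen_U' D).mem_nhds hx] with y hy
        exact Vg_eq h hy k
      rw [(h2.congr h3).pd]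
      simp
    simp only [h1, Finset.sum_add_distrib, Finset.sum_const, Finset.card_univ, Fintype.card_fin,
      nsmul_eq_mul]
    have h4 : ∑ k, D.dvf (len x) / len x * x k * x k = D.dvf (len x) / len x * ∑ k, x k * x k := by
      rw [Finset.mul_sum]
      exact Finset.sum_congr rfl fun k _ => by ring
    rw [h4, Quat.sum_sq]
    field_simp
  -- divergence of `L`
  have hL : ∑ i, ∑ j, up g i j x * Stmt.pd j (Lg g i) x =
      deriv D.elf (len x) * len x / D.p (len x) + D.elf (len x) *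
        (((n : ℝ) - 4) / D.al (len x) + 1 / D.p (len x) + D.TW (len x)) := by
    have h1 : ∀ i j, Stmt.pd j (Lg g i) x =
        deriv D.elf (len x) / len x * (x i * x j) + D.elf (len x) * (if i = j then 1 else 0) := by
      intro i j
      have h2 := (HP.radial hx0 (D.elf_der hx.le) j).mul (HP.coord j i x)
      have h3 : Lg g i =ᶠ[𝓝 x] fun y => D.elf (len y) * y i := by
        filter_upwards [(isOpen_U' D).mem_nhds hx] with y hy
        exact Lg_eq h hy i
      rw [(h2.congr h3).pd]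
      ring
    have h4 : ∑ i, ∑ j, up g i j x * Stmt.pd j (Lg g i) x =
        deriv D.elf (len x) / len x * (∑ i, ∑ j, D.U x i j * (x i * x j)) +
        D.elf (len x) * ∑ k, D.G x k k := by
      rw [Finset.mul_sum, Finset.mul_sum, ← Finset.sum_add_distrib]
      refine Finset.sum_congr rfl fun i _ => ?_
      simp only [h1, up_eq h hx.le, mul_add, Finset.sum_add_distrib, Finset.mul_sum]
      congr 1
      · exact Finset.sum_congr rfl fun j _ => by ring
      · simp [Data.G]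
        ring
    rw [h4, xUx D hx0, D.tr_G hx0]
    field_simp
  have hLV : ∑ l, Lg g l x * Vg g l x = D.elf (len x) * D.vf (len x) * len x ^ 2 := by
    have h1 : ∀ l, Lg g l x * Vg g l x = D.elf (len x) * D.vf (len x) * (x l * x l) := by
      intro l
      rw [Lg_eq h hx, Vg_eq h hx]; ring
    simp only [h1, ← Finset.mul_sum]
    rw [Quat.sum_sq]
  have hU3 : ∑ k, ∑ l, up g k l x * ∑ i, ∑ j, Stmt.pd k (up g i j) x *
        Stmt.pd i (fun y => g y j l) x = U3 (D.G x) (D.E2 x) (D.E1 x) := by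
    unfold U3
    simp only [pd_g h hx, pd_up h hx, up_eq h hx.le]
    rfl
  have hT3 : ∑ k, ∑ l, up g k l x * ∑ i, ∑ j, Stmt.pd k (up g i j) x *
        Stmt.pd l (fun y => g y i j) x = T3 (D.G x) (D.E2 x) (D.E1 x) := by
    unfold T3
    simp only [pd_g h hx, pd_up h hx, up_eq h hx.le]
    rfl
  rw [hU3, hT3, sub_eq_add_neg, quad_val D hx, hV, hL, hLV] at h0
  rw [h0]
  unfold Data.Rg
  have hHd : 2 * deriv D.H (len x) / D.c (len x) = 2 * ((D.dEf (len x) -
      D.Ef (len x) * deriv D.p (len x) / (2 * D.p (len x))) / D.p (len x)) := by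
    rw [mul_div_assoc, D.H_der hx]
  rw [D.Rh_eq hx.le, D.II2_eq hx.le, D.H_sq hx.le, hHd]
  unfold Data.quadv
  exact final_id (n : ℝ) (len x) (D.al (len x)) (D.p (len x)) (deriv D.al (len x))
    (deriv D.p (len x)) (deriv (deriv D.p) (len x)) (D.elf (len x)) (deriv D.elf (len x))
    (D.X1 (len x)) (D.X2 (len x)) (D.X3 (len x)) (D.X4 (len x)) (D.TW (len x)) (D.TQ (len x))
    (D.TW2 (len x)) hr.ne' hal hp (D.elf_eq _)
    _ _ _ _ _ _ _ _ _ _ _ _ _ _ _ _ _ _ _ _ _ _ _ _ _ _ _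
    rfl rfl rfl rfl rfl rfl rfl rfl rfl rfl rfl rfl rfl rfl rfl rfl rfl rfl rfl rfl rfl rfl
    rfl rfl rfl rfl rfl

end Vale.Agent.P366.T2
end
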