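import Vale.Agent.P366.T2.A765.LVD

/-!
# Traces of `3 × 3` matrices
-/

open scoped BigOperators

noncomputable section
namespace Vale.Agent.P366.T2

abbrev M3 := Fin 3 → Fin 3 → ℝ

def ip (A B : M3) : ℝ := ∑ a, ∑ b, A a b * B a b

def tr3m (A : M3) : ℝ := ∑ a, A a a

def mm (A B : M3) : M3 := fun a b => ∑ e, A a e * B e b

lemma Omega {A B C : M3} (hA : ∀ a b, A a b = A b a) (hB : ∀ a b, B a b = B b a)
    (hC : ∀ a b, C a b = C b a) :
    ∑ d, ∑ e, B d e * ∑ a, ∑ b, A a b * (∑ f, ∑ h, eps a e f * eps d b h * C f h) =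
      -(tr3m A * (tr3m B * tr3m C - ip B C) - ip A B * tr3m C - ip A C * tr3m B +
        2 * ip A (mm B C)) := by
  unfold tr3m ip mm
  simp only [Fin.sum_univ_three]
  rw [hA 1 0, hA 2 0, hA 2 1, hB 1 0, hB 2 0, hB 2 1, hC 1 0, hC 2 0, hC 2 1]
  simp [eps]
  ring

end Vale.Agent.P366.T2
end
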