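import Vale.Agent.P366.T2.A765.Eval2
import Vale.Agent.P366.T2.Calc
import Vale.Agent.P366.T2.Up

/-!
# Invariant tensors without mixed part, in the form `f δ + u x x + s Y Y`
-/

open MeasureTheory Metric Filter Topology Set
open scoped BigOperators ContDiff ENNReal

noncomputable section
namespace Vale.Agent.P366.T2
open Vale.Agent.P366.Stmt

variable {n : ℕ} (Q : Quat n)

/-- values: `f δ + u x x + s_ab Y_a Y_b` -/
def tv (x : E n) (f u : ℝ) (s : Fin 3 → Fin 3 → ℝ) : V2 n := fun i j =>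
  f * (if i = j then 1 else 0) + u * (x i * x j) + ∑ a, ∑ b, s a b * (Q.Y a x i * Q.Y b x j)

lemma tv_symm (x : E n) (f u : ℝ) {s : Fin 3 → Fin 3 → ℝ} (hs : ∀ a b, s a b = s b a)
    (i j : Fin n) : tv Q x f u s i j = tv Q x f u s j i := by
  unfold tv
  have e : ∑ a, ∑ b, s a b * (Q.Y a x i * Q.Y b x j) =
      ∑ a, ∑ b, s a b * (Q.Y a x j * Q.Y b x i) := by
    rw [Finset.sum_comm]
    exact Finset.sum_congr rfl fun a _ => Finset.sum_congr rfl fun b _ => by rw [hs b a]; ring
  rw [e, mul_comm (x i) (x j)]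
  simp only [eq_comm (a := i) (b := j)]

/-- rank one pieces -/
lemma tv_eq (x : E n) (f u : ℝ) (s : Fin 3 → Fin 3 → ℝ) (i j : Fin n) :
    tv Q x f u s i j = f * dl i j + u * (xv x i * xv x j) +
      ∑ a, ∑ b, s a b * (Yv Q x a i * Yv Q x b j) := rfl

lemma tv_mv (x : E n) (f u : ℝ) (s : Fin 3 → Fin 3 → ℝ) (v : V1 n) :
    mv (tv Q x f u s) v = f • v + (u * dt (xv x) v) • xv x +
      ∑ a, (∑ b, s a b * dt (Yv Q x b) v) • Yv Q x a := by
  funext i
  simp only [mv, tv_eq, Pi.add_apply, Pi.smul_apply, Finset.sum_apply, smul_eq_mul, add_mul,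
    Finset.sum_add_distrib, dt]
  congr 1
  · congr 1
    · simp [dl]
    · rw [Finset.mul_sum, Finset.sum_mul]
      exact Finset.sum_congr rfl fun j _ => by ring
  · simp only [Finset.sum_mul, Finset.mul_sum]
    rw [Finset.sum_comm]
    refine Finset.sum_congr rfl fun a _ => ?_
    rw [Finset.sum_comm]
    exact Finset.sum_congr rfl fun b _ => Finset.sum_congr rfl fun j _ => by ring

lemma tv_adm (x : E n) (f u : ℝ) {s : Fin 3 → Fin 3 → ℝ} (hs : ∀ a b, s a b = s b a) :
    Adm Q x (tv Q x f u s) (f + u * len x ^ 2)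
      (fun a b => f * (if a = b then 1 else 0) + s a b * len x ^ 2) where
  symm := tv_symm Q x f u hs
  hx := by
    rw [tv_mv, dt_xx]
    simp only [dt_Yx, mul_zero, Finset.sum_const_zero, zero_smul, add_zero]
    rw [add_smul]
  hY := fun c => by
    rw [tv_mv, dt_xY]
    simp only [dt_YY, mul_zero, zero_smul, add_zero, mul_ite, Finset.sum_ite_eq',
      Finset.mem_univ, if_true, mul_one, add_smul, Finset.sum_add_distrib, ite_smul]

lemma tv_trace (x : E n) (f u : ℝ) (s : Fin 3 → Fin 3 → ℝ) :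
    ∑ k, tv Q x f u s k k = n * f + u * len x ^ 2 + (∑ a, s a a) * len x ^ 2 := by
  simp only [tv_eq, Finset.sum_add_distrib]
  have e1 : ∑ k : Fin n, f * dl k k = n * f := by
    simp [dl]
  have e2 : ∑ k : Fin n, u * (xv x k * xv x k) = u * len x ^ 2 := by
    rw [← Finset.mul_sum, ← dt_xx]; rfl
  have e3 : ∑ k : Fin n, ∑ a, ∑ b, s a b * (Yv Q x a k * Yv Q x b k) =
      (∑ a, s a a) * len x ^ 2 := by
    rw [Finset.sum_comm, Finset.sum_mul]
    refine Finset.sum_congr rfl fun a _ => ?_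
    rw [Finset.sum_comm]
    simp only [← Finset.mul_sum]
    have : ∀ b, ∑ k, Yv Q x a k * Yv Q x b k = if a = b then len x ^ 2 else 0 := dt_YY Q x a
    simp [this]
  rw [e1, e2, e3]

lemma pr_tv {x : E n} (G : V2 n) {ν : ℝ} {t : Fin 3 → Fin 3 → ℝ} (hG : Adm Q x G ν t) (f u : ℝ)
    (s : Fin 3 → Fin 3 → ℝ) :
    pr G (tv Q x f u s) = f * (∑ k, G k k) + u * (ν * len x ^ 2) +
      (∑ a, ∑ b, s a b * t a b) * len x ^ 2 := by
  unfold pr
  simp only [tv_eq, mul_add, Finset.sum_add_distrib]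
  have e1 : ∑ i, ∑ j, G i j * (f * dl i j) = f * ∑ k, G k k := by
    rw [Finset.mul_sum]
    refine Finset.sum_congr rfl fun i _ => ?_
    simp [dl]
    ring
  have e2 : ∑ i, ∑ j, G i j * (u * (xv x i * xv x j)) = u * (ν * len x ^ 2) := by
    rw [sum_const G u (fun k l => rfl), dt_mv, hG.xGx]
  have e3 : ∑ i, ∑ j, G i j * ∑ a, ∑ b, s a b * (Yv Q x a i * Yv Q x b j) =
      (∑ a, ∑ b, s a b * t a b) * len x ^ 2 := by
    have : ∀ a b, ∑ i, ∑ j, G i j * (s a b * (Yv Q x a i * Yv Q x b j)) =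
        s a b * t a b * len x ^ 2 := by
      intro a b
      rw [sum_const G (s a b) (fun k l => rfl), dt_mv, hG.YGY]
      ring
    rw [Finset.sum_mul]
    simp only [Finset.sum_mul, ← this, Finset.mul_sum]
    calc ∑ i, ∑ j, ∑ a, ∑ b, G i j * (s a b * (Yv Q x a i * Yv Q x b j))
        = ∑ i, ∑ a, ∑ j, ∑ b, G i j * (s a b * (Yv Q x a i * Yv Q x b j)) :=
          Finset.sum_congr rfl fun i _ => Finset.sum_comm
      _ = ∑ a, ∑ i, ∑ j, ∑ b, G i j * (s a b * (Yv Q x a i * Yv Q x b j)) := Finset.sum_comm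
      _ = ∑ a, ∑ i, ∑ b, ∑ j, G i j * (s a b * (Yv Q x a i * Yv Q x b j)) :=
          Finset.sum_congr rfl fun a _ => Finset.sum_congr rfl fun i _ => Finset.sum_comm
      _ = ∑ a, ∑ b, ∑ i, ∑ j, G i j * (s a b * (Yv Q x a i * Yv Q x b j)) :=
          Finset.sum_congr rfl fun a _ => Finset.sum_comm
  rw [e1, e2, e3]

/-- radial functions times the basic tensors -/
def tt (f u : ℝ → ℝ) (s : Fin 3 → Fin 3 → ℝ → ℝ) (x : E n) : V2 n :=
  tv Q x (f (len x)) (u (len x)) (fun a b => s a b (len x))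

lemma ten_eq_tt (f u : ℝ → ℝ) (s : Fin 3 → Fin 3 → ℝ → ℝ) {x : E n} (hx : x ≠ 0)
    (i j : Fin n) : Q.ten f u (fun _ _ => 0) s x i j =
      tt Q f (fun r => (u r - f r) / r ^ 2)
        (fun a b r => (s a b r - (if a = b then f r else 0)) / r ^ 2) x i j := by
  have hr := len_ne hx
  unfold tt tv
  rw [Quat.ten]
  have e1 : ∑ a, ∑ b, (s a b (len x) - (if a = b then f (len x) else 0)) / len x ^ 2 *
      (Q.Y a x i * Q.Y b x j) = (∑ a, ∑ b, s a b (len x) * Q.Y a x i * Q.Y b x j) / len x ^ 2 -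
      f (len x) * (∑ a, Q.Y a x i * Q.Y a x j) / len x ^ 2 := by
    rw [Finset.sum_div, Finset.mul_sum, Finset.sum_div, ← Finset.sum_sub_distrib]
    refine Finset.sum_congr rfl fun a _ => ?_
    have : f (len x) * (Q.Y a x i * Q.Y a x j) / len x ^ 2 =
        ∑ b, (if a = b then f (len x) else 0) * (Q.Y a x i * Q.Y b x j) / len x ^ 2 := by
      rw [Finset.sum_eq_single a]
      · simp
      · intro b _ hb
        simp [Ne.symm hb]
      · simp
    rw [this, Finset.sum_div, ← Finset.sum_sub_distrib]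
    exact Finset.sum_congr rfl fun b _ => by ring
  rw [e1]
  simp only [zero_mul, Finset.sum_const_zero]
  ring

/-- The derivative of an invariant tensor. -/
lemma HP_tt {f u : ℝ → ℝ} {s : Fin 3 → Fin 3 → ℝ → ℝ} {x : E n} (hx : x ≠ 0) {f' u' : ℝ}
    {s' : Fin 3 → Fin 3 → ℝ} (hf : HasDerivAt f f' (len x)) (hu : HasDerivAt u u' (len x))
    (hs : ∀ a b, HasDerivAt (s a b) (s' a b) (len x)) (hsym : ∀ a b, s a b = s b a)
    (k i j : Fin n) :
    HP k (fun y => tt Q f u s y i j)
      (D3 Q x (tv Q x (f' / len x) (u' / len x) (fun a b => s' a b / len x)) (u (len x))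
        (fun a b => s a b (len x)) k i j) x := by
  have h1 : HP k (fun y => f (len y) * (if i = j then 1 else 0))
      (f' / len x * x k * (if i = j then 1 else 0)) x := by
    have := (HP.radial hx hf k).mul (HP.const k (if i = j then (1 : ℝ) else 0) x)
    simpa using this
  have h2 : HP k (fun y => u (len y) * (y i * y j))
      (u' / len x * x k * (x i * x j) + u (len x) * ((if i = k then 1 else 0) * x j +
        x i * (if j = k then 1 else 0))) x :=
    (HP.radial hx hu k).mul ((HP.coord k i x).mul (HP.coord k j x))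
  have h3 : HP k (fun y => ∑ a, ∑ b, s a b (len y) * (Q.Y a y i * Q.Y b y j))
      (∑ a, ∑ b, (s' a b / len x * x k * (Q.Y a x i * Q.Y b x j) + s a b (len x) *
        (Q.J a i k * Q.Y b x j + Q.Y a x i * Q.J b j k))) x := by
    refine HP.sum _ fun a _ => HP.sum _ fun b _ => ?_
    exact (HP.radial hx (hs a b) k).mul ((HP.Y Q a k i x).mul (HP.Y Q b k j x))
  have h := (h1.add h2).add h3
  have e : D3 Q x (tv Q x (f' / len x) (u' / len x) (fun a b => s' a b / len x)) (u (len x))
        (fun a b => s a b (len x)) k i j =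
      f' / len x * x k * (if i = j then 1 else 0) + (u' / len x * x k * (x i * x j) +
      u (len x) * ((if i = k then 1 else 0) * x j + x i * (if j = k then 1 else 0))) +
      ∑ a, ∑ b, (s' a b / len x * x k * (Q.Y a x i * Q.Y b x j) + s a b (len x) *
        (Q.J a i k * Q.Y b x j + Q.Y a x i * Q.J b j k)) := by
    unfold D3 X3 S3 tv
    simp only [Pi.add_apply, Pi.smul_apply, Finset.sum_apply, smul_eq_mul, dl, xv, Yv, Jm,
      mul_add, Finset.sum_add_distrib]
    have e4 : ∑ a, ∑ b, s a b (len x) * (Q.Y b x i * Q.J a j k) =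
        ∑ a, ∑ b, s a b (len x) * (Q.Y a x i * Q.J b j k) := by
      rw [Finset.sum_comm]
      exact Finset.sum_congr rfl fun a _ => Finset.sum_congr rfl fun b _ => by rw [hsym b a]
    rw [e4]
    have e5 : x k * ∑ a, ∑ b, s' a b / len x * (Q.Y a x i * Q.Y b x j) =
        ∑ a, ∑ b, s' a b / len x * x k * (Q.Y a x i * Q.Y b x j) := by
      rw [Finset.mul_sum]
      refine Finset.sum_congr rfl fun a _ => ?_
      rw [Finset.mul_sum]
      exact Finset.sum_congr rfl fun b _ => by ring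
    rw [e5]
    ring
  rw [e]
  exact h

end Vale.Agent.P366.T2
end
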