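import Vale.Agent.P366.T2.A765.Quad

/-!
# The quadratic part of the scalar curvature of the data: values
-/

open MeasureTheory Metric Filter Topology Set
open scoped BigOperators ContDiff ENNReal

noncomputable section
namespace Vale.Agent.P366.T2
open Vale.Agent.P366.Stmt

variable {n : ℕ}

lemma quad_auxT (s s' : M3) (hs' : ∀ a b, s' a b = s' b a)
    (W : Fin 3 → Fin 3 → Fin 3 → Fin 3 → ℝ) (τ ν ρ : ℝ) :
    ∑ d, ∑ e, s d e * ∑ a, ∑ b, s' a b *
        (2 * ((if a = d then τ else 0) * (if b = e then ρ else 0)) +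
        2 * ((if a = e then 1 else 0) * (if d = b then 1 else 0) * (ν * ρ) + W a b d e * ρ)) =
      2 * (τ + ν) * ρ * ip s s' +
        2 * ρ * ∑ d, ∑ e, s d e * ∑ a, ∑ b, s' a b * W a b d e := by
  have h : ∀ d e, ∑ a, ∑ b, s' a b *
        (2 * ((if a = d then τ else 0) * (if b = e then ρ else 0)) +
        2 * ((if a = e then 1 else 0) * (if d = b then 1 else 0) * (ν * ρ) + W a b d e * ρ)) =
      2 * (τ + ν) * ρ * s' d e + 2 * ρ * ∑ a, ∑ b, s' a b * W a b d e := by
    intro d e
    have h1 : ∑ a, ∑ b, s' a b * (2 * ((if a = d then τ else 0) * (if b = e then ρ else 0))) =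
        2 * τ * ρ * s' d e := by
      simp only [mul_ite, ite_mul, mul_zero, zero_mul, Finset.sum_ite_eq', Finset.mem_univ,
        if_true]
      ring
    have h2 : ∑ a, ∑ b, s' a b * (2 * ((if a = e then 1 else 0) * (if d = b then 1 else 0) *
        (ν * ρ))) = 2 * ν * ρ * s' d e := by
      simp only [mul_ite, ite_mul, mul_zero, zero_mul, mul_one, one_mul, Finset.sum_ite_eq',
        Finset.sum_ite_eq, Finset.mem_univ, if_true, hs' e d]
      ring
    have h3 : ∑ a, ∑ b, s' a b * (2 * (W a b d e * ρ)) =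
        2 * ρ * ∑ a, ∑ b, s' a b * W a b d e := by
      rw [Finset.mul_sum]
      refine Finset.sum_congr rfl fun a _ => ?_
      rw [Finset.mul_sum]
      exact Finset.sum_congr rfl fun b _ => by ring
    calc _ = (∑ a, ∑ b, s' a b * (2 * ((if a = d then τ else 0) * (if b = e then ρ else 0)))) +
          (∑ a, ∑ b, s' a b * (2 * ((if a = e then 1 else 0) * (if d = b then 1 else 0) *
            (ν * ρ)))) + ∑ a, ∑ b, s' a b * (2 * (W a b d e * ρ)) := by
          rw [← Finset.sum_add_distrib, ← Finset.sum_add_distrib]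
          refine Finset.sum_congr rfl fun a _ => ?_
          rw [← Finset.sum_add_distrib, ← Finset.sum_add_distrib]
          exact Finset.sum_congr rfl fun b _ => by ring
      _ = _ := by rw [h1, h2, h3]; ring
  simp only [h]
  simp only [mul_add, Finset.sum_add_distrib]
  congr 1
  · unfold ip
    simp only [Finset.mul_sum]
    exact Finset.sum_congr rfl fun d _ => Finset.sum_congr rfl fun e _ => by ring
  · simp only [Finset.mul_sum]
    exact Finset.sum_congr rfl fun d _ => Finset.sum_congr rfl fun e _ =>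
      Finset.sum_congr rfl fun a _ => Finset.sum_congr rfl fun b _ => by ring

lemma quad_auxU (s s' : M3) (hs' : ∀ a b, s' a b = s' b a)
    (W : Fin 3 → Fin 3 → Fin 3 → Fin 3 → ℝ) (τ ν ρ : ℝ) :
    ∑ d, ∑ e, s d e * ∑ a, ∑ b, s' a b *
        ((if b = e then ρ else 0) * (if a = d then -τ else 0) -
        ((if a = e then 1 else 0) * (if d = b then 1 else 0) * (ν * ρ) + W a b d e * ρ)) =
      -((τ + ν) * ρ * ip s s') -
        ρ * ∑ d, ∑ e, s d e * ∑ a, ∑ b, s' a b * W a b d e := by
  have h := quad_auxT s s' hs' W τ ν ρ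
  have h1 : ∑ d, ∑ e, s d e * ∑ a, ∑ b, s' a b *
        ((if b = e then ρ else 0) * (if a = d then -τ else 0) -
        ((if a = e then 1 else 0) * (if d = b then 1 else 0) * (ν * ρ) + W a b d e * ρ)) =
      (-1 / 2) * ∑ d, ∑ e, s d e * ∑ a, ∑ b, s' a b *
        (2 * ((if a = d then τ else 0) * (if b = e then ρ else 0)) +
        2 * ((if a = e then 1 else 0) * (if d = b then 1 else 0) * (ν * ρ) + W a b d e * ρ)) := by
    simp only [Finset.mul_sum]
    refine Finset.sum_congr rfl fun d _ => Finset.sum_congr rfl fun e _ =>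
      Finset.sum_congr rfl fun a _ => Finset.sum_congr rfl fun b _ => ?_
    have : (if a = d then -τ else 0) = -(if a = d then τ else 0) := by split_ifs <;> simp
    rw [this]
    ring
  rw [h1, h]
  ring

section vals

variable {Q : Quat n} {x : E n}
variable {G C C' : V2 n} {ν c c' : ℝ} {t tc tc' : M3}
  (hG : Adm Q x G ν t) (hC : Adm Q x C c tc) (hC' : Adm Q x C' c' tc')

include hG hC hC'

theorem T3_ip (u u' : ℝ) (s s' : M3) (ht : ∀ a b, t a b = t b a) (hs : ∀ a b, s a b = s b a)
    (hs' : ∀ a b, s' a b = s' b a) :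
    T3 G (D3 Q x C' u' s') (D3 Q x C u s) = len x ^ 2 *
      (ν * pr C' C + 2 * ν * u * c' + 2 * ν * u' * c + 2 * ν * ip s tc' + 2 * ν * ip s' tc +
      2 * u * u' * ((∑ k, G k k) + ν) - 2 * u' * ip s t - 2 * u * ip s' t +
      2 * ((∑ k, G k k) + ν) * ip s s' -
      2 * (tr3m s' * (tr3m s * tr3m t - ip s t) - ip s' s * tr3m t - ip s' t * tr3m s +
        2 * ip s' (mm s t))) := by
  rw [T3_D3 hG hC hC', quad_auxT s s' hs', Omega hs' hs ht]
  have e1 : ∑ a, ∑ b, s a b * (2 * (ν * len x ^ 2 * tc' a b)) =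
      2 * ν * len x ^ 2 * ip s tc' := by
    unfold ip
    simp only [Finset.mul_sum]
    exact Finset.sum_congr rfl fun a _ => Finset.sum_congr rfl fun b _ => by ring
  have e2 : ∑ a, ∑ b, s a b * (-(2 * (t b a * len x ^ 2))) = -(2 * len x ^ 2 * ip s t) := by
    unfold ip
    simp only [Finset.mul_sum, ← Finset.sum_neg_distrib]
    exact Finset.sum_congr rfl fun a _ => Finset.sum_congr rfl fun b _ => by rw [ht b a]; ring
  have e3 : ∑ a, ∑ b, s' a b * (2 * (ν * len x ^ 2 * tc a b)) =
      2 * ν * len x ^ 2 * ip s' tc := by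
    unfold ip
    simp only [Finset.mul_sum]
    exact Finset.sum_congr rfl fun a _ => Finset.sum_congr rfl fun b _ => by ring
  have e4 : ∑ a, ∑ b, s' a b * (u * (-(2 * (t a b * len x ^ 2)))) =
      -(2 * u * len x ^ 2 * ip s' t) := by
    unfold ip
    simp only [Finset.mul_sum, ← Finset.sum_neg_distrib]
    exact Finset.sum_congr rfl fun a _ => Finset.sum_congr rfl fun b _ => by ring
  rw [e1, e2, e3, e4]
  ring

theorem U3_ip (u u' : ℝ) (s s' : M3) (ht : ∀ a b, t a b = t b a) (hs : ∀ a b, s a b = s b a)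
    (hs' : ∀ a b, s' a b = s' b a) :
    U3 G (D3 Q x C' u' s') (D3 Q x C u s) = len x ^ 2 *
      (ν * c * c' + u * ν * (∑ i, C' i i) + u * ν * c' - ν * ip s tc' + u' * ν * c +
      u' * pr G C + u * u' * (3 * ν + ∑ k, G k k) + u' * ip s t - ip s' (mm t tc) +
      2 * u * ν * tr3m s' - u * ip s' t - ((∑ k, G k k) + ν) * ip s s' +
      (tr3m s' * (tr3m s * tr3m t - ip s t) - ip s' s * tr3m t - ip s' t * tr3m s +
        2 * ip s' (mm s t))) := by
  rw [U3_D3 hG hC hC', quad_auxU s s' hs', Omega hs' hs ht]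
  have e1 : ∑ a, ∑ b, s a b * (-(ν * len x ^ 2 * tc' a b)) = -(ν * len x ^ 2 * ip s tc') := by
    unfold ip
    simp only [Finset.mul_sum, ← Finset.sum_neg_distrib]
    exact Finset.sum_congr rfl fun a _ => Finset.sum_congr rfl fun b _ => by ring
  have e2 : ∑ a, ∑ b, s a b * (t b a * len x ^ 2) = len x ^ 2 * ip s t := by
    unfold ip
    simp only [Finset.mul_sum]
    exact Finset.sum_congr rfl fun a _ => Finset.sum_congr rfl fun b _ => by rw [ht b a]; ring
  have e3 : ∑ a, ∑ b, s' a b * (-(len x ^ 2 * ∑ e, t a e * tc e b)) =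
      -(len x ^ 2 * ip s' (mm t tc)) := by
    unfold ip mm
    rw [Finset.mul_sum, ← Finset.sum_neg_distrib]
    refine Finset.sum_congr rfl fun a _ => ?_
    rw [Finset.mul_sum, ← Finset.sum_neg_distrib]
    exact Finset.sum_congr rfl fun b _ => by ring
  have e4 : ∑ a, ∑ b, s' a b * (u * (2 * (if a = b then ν * len x ^ 2 else 0) -
      t a b * len x ^ 2)) = len x ^ 2 * (2 * u * ν * tr3m s' - u * ip s' t) := by
    have e5 : ∑ a, ∑ b, s' a b * (u * (2 * (if a = b then ν * len x ^ 2 else 0) -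
      t a b * len x ^ 2)) = (∑ a, ∑ b, s' a b * (u * (2 * (if a = b then ν * len x ^ 2 else 0)))) -
      ∑ a, ∑ b, s' a b * (u * (t a b * len x ^ 2)) := by
      rw [← Finset.sum_sub_distrib]
      refine Finset.sum_congr rfl fun a _ => ?_
      rw [← Finset.sum_sub_distrib]
      exact Finset.sum_congr rfl fun b _ => by ring
    rw [e5, mul_sub]
    congr 1
    · simp only [mul_ite, mul_zero, Finset.sum_ite_eq, Finset.mem_univ, if_true]
      unfold tr3m
      simp only [Finset.mul_sum]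
      exact Finset.sum_congr rfl fun a _ => by ring
    · unfold ip
      simp only [Finset.mul_sum]
      exact Finset.sum_congr rfl fun a _ => Finset.sum_congr rfl fun b _ => by ring
  rw [e1, e2, e3, e4]
  ring

end vals

/-- `-(1/2)(U3 - (1/2) T3)` -/
theorem quad_ip {Q : Quat n} {x : E n}
    {G C C' : V2 n} {ν c c' : ℝ} {t tc tc' : M3}
    (hG : Adm Q x G ν t) (hC : Adm Q x C c tc) (hC' : Adm Q x C' c' tc')
    (u u' : ℝ) (s s' : M3) (ht : ∀ a b, t a b = t b a) (hs : ∀ a b, s a b = s b a)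
    (hs' : ∀ a b, s' a b = s' b a) :
    -((1 / 2) * (U3 G (D3 Q x C' u' s') (D3 Q x C u s) -
      (1 / 2) * T3 G (D3 Q x C' u' s') (D3 Q x C u s))) = len x ^ 2 *
      (ν * pr C' C / 4 - ν * c * c' / 2 + ν * ip s tc' + ν * ip s' tc / 2 +
      ip s' (mm t tc) / 2 - u * ν * (∑ i, C' i i) / 2 - u' * pr G C / 2 - u * u' * ν -
      u' * ip s t - u * ν * tr3m s' + ((∑ k, G k k) + ν) * ip s s' -
      (tr3m s' * (tr3m s * tr3m t - ip s t) - ip s' s * tr3m t - ip s' t * tr3m s +
        2 * ip s' (mm s t))) := by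
  rw [T3_ip hG hC hC' u u' s s' ht hs hs', U3_ip hG hC hC' u u' s s' ht hs hs']
  ring

end Vale.Agent.P366.T2
end
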