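import Vale.Agent.P366.T2.A765.Val

/-!
# The quadratic part of the scalar curvature of the data: explicit value
-/

open MeasureTheory Metric Filter Topology Set
open scoped BigOperators ContDiff ENNReal

noncomputable section
namespace Vale.Agent.P366.T2
open Vale.Agent.P366.Stmt

variable {n : ℕ}

namespace Data

variable (D : Data n)

/-- radial eigenvalue of `C1` -/
def cc1 (r : ℝ) : ℝ := deriv D.p r / r - 2 * D.u1 r
/-- radial eigenvalue of `C2` -/
def cc2 (r : ℝ) : ℝ := D.dp2 r / r - 2 * D.u2 r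
/-- fibre block of `C1` -/
def tc1 (r : ℝ) : M3 := (1 / r) • D.d r - (2 : ℝ) • D.S1 r
/-- fibre block of `C2` -/
def tc2 (r : ℝ) : M3 := (1 / r) • D.dw r - (2 : ℝ) • D.S2 r

lemma C1_adm' {x : E n} (hx : D.R < len x) :
    Adm D.Q x (D.C1 x) (D.cc1 (len x)) (D.tc1 (len x)) := by
  have hr : 0 < len x := D.hR.trans hx
  have h := D.C1_adm (x := x)
  have e1 : D.cc1 (len x) = deriv D.al (len x) / len x + D.du1 (len x) / len x * len x ^ 2 := by
    unfold cc1 u1 du1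
    field_simp
    ring
  have e2 : D.tc1 (len x) = fun a b => deriv D.al (len x) / len x * (if a = b then 1 else 0) +
        D.ds1 (len x) a b / len x * len x ^ 2 := by
    funext a b
    unfold tc1 S1 ds1 s1 d
    simp only [Pi.sub_apply, Pi.smul_apply, smul_eq_mul]
    split_ifs <;> field_simp <;> ring
  rw [e1, e2]
  exact h

lemma C2_adm' {x : E n} (hx : D.R < len x) :
    Adm D.Q x (D.C2 x) (D.cc2 (len x)) (D.tc2 (len x)) := by
  have hr : 0 < len x := D.hR.trans hx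
  have hal := (D.al_pos _ hx.le).ne'
  have hp := (D.p_pos _ hx.le).ne'
  have h := D.C2_adm (x := x)
  have e1 : D.cc2 (len x) = D.df2 (len x) / len x + D.du2 (len x) / len x * len x ^ 2 := by
    unfold cc2 u2 du2
    field_simp
    ring
  have e2 : D.tc2 (len x) = fun a b => D.df2 (len x) / len x * (if a = b then 1 else 0) +
        D.ds2 (len x) a b / len x * len x ^ 2 := by
    funext a b
    unfold tc2 S2 ds2 s2 dw
    simp only [Pi.sub_apply, Pi.smul_apply, smul_eq_mul]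
    split_ifs <;> field_simp <;> ring
  rw [e1, e2]
  exact h

lemma tc1_def {r : ℝ} (hr : 0 < r) (a b : Fin 3) : D.ds1 r a b / r * r ^ 2 =
    D.tc1 r a b - deriv D.al r / r * (if a = b then 1 else 0) := by
  unfold tc1 S1 ds1 s1 d
  simp only [Pi.sub_apply, Pi.smul_apply, smul_eq_mul]
  split_ifs <;> field_simp <;> ring

lemma trC2 {x : E n} (hx : D.R < len x) :
    ∑ k, D.C2 x k k = ((n : ℝ) - 4) * (D.df2 (len x) / len x) + D.cc2 (len x) +
      tr3m (D.tc2 (len x)) := by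
  have hr : 0 < len x := D.hR.trans hx
  unfold C2
  rw [tv_trace]
  unfold tr3m tc2 S2 ds2 s2 dw cc2 u2 du2
  simp only [Pi.sub_apply, Pi.smul_apply, smul_eq_mul, Fin.sum_univ_three, if_true]
  field_simp
  ring

lemma pr_C1 {x : E n} (hx : D.R < len x) {G : V2 n} {ν : ℝ} {t : M3} (hG : Adm D.Q x G ν t) :
    pr G (D.C1 x) = deriv D.al (len x) / len x * ((∑ k, G k k) - ν - tr3m t) +
      ν * D.cc1 (len x) + ip (D.tc1 (len x)) t := by
  have hr : 0 < len x := D.hR.trans hx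
  have e0 : D.du1 (len x) / len x * len x ^ 2 = D.cc1 (len x) - deriv D.al (len x) / len x := by
    unfold cc1 u1 du1
    field_simp
    ring
  have e1 : (∑ a, ∑ b, D.ds1 (len x) a b / len x * t a b) * len x ^ 2 =
      ip (D.tc1 (len x)) t - deriv D.al (len x) / len x * tr3m t := by
    have h1 : ip (D.tc1 (len x)) t - deriv D.al (len x) / len x * tr3m t =
        ∑ a, ∑ b, (D.tc1 (len x) a b - deriv D.al (len x) / len x * (if a = b then 1 else 0)) *
          t a b := by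
      unfold ip tr3m
      rw [Finset.mul_sum, ← Finset.sum_sub_distrib]
      refine Finset.sum_congr rfl fun a _ => ?_
      simp only [sub_mul, Finset.sum_sub_distrib]
      congr 1
      simp
    rw [h1, Finset.sum_mul]
    refine Finset.sum_congr rfl fun a _ => ?_
    rw [Finset.sum_mul]
    refine Finset.sum_congr rfl fun b _ => ?_
    rw [← D.tc1_def hr]
    ring
  unfold C1
  rw [pr_tv D.Q G hG, e1]
  have e2 : D.du1 (len x) / len x * (ν * len x ^ 2) =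
      ν * (D.cc1 (len x) - deriv D.al (len x) / len x) := by
    rw [← e0]; ring
  rw [e2]
  ring

lemma G_adm' {x : E n} (hx : x ≠ 0) : Adm D.Q x (D.G x) (1 / D.p (len x)) (D.w (len x)) :=
  D.G_adm hx

lemma tr_G {x : E n} (hx : x ≠ 0) :
    ∑ k, D.G x k k = (n - 4) / D.al (len x) + 1 / D.p (len x) + D.TW (len x) := D.G_trace hx

/-! pairings with `tc1`, `tc2` -/

variable {r : ℝ}

lemma ip_S1_tc2 (hr : D.R < r) : ip (D.S1 r) (D.tc2 r) =
    (-D.X1 r + D.al r * D.X3 r) / r ^ 2 / r -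
      2 * ((6 - D.al r * D.TW r - D.TQ r / D.al r) / (r ^ 2) ^ 2) := by
  unfold tc2
  rw [ip_sub_right, ip_smul_right, ip_smul_right, D.ip_S1_dw hr.le, D.ip_S1_S2 hr.le]
  ring

lemma ip_S2_tc1 (hr : D.R < r) : ip (D.S2 r) (D.tc1 r) =
    (D.X1 r - D.X4 r / D.al r) / r ^ 2 / r -
      2 * ((6 - D.al r * D.TW r - D.TQ r / D.al r) / (r ^ 2) ^ 2) := by
  unfold tc1
  rw [ip_sub_right, ip_smul_right, ip_smul_right, D.ip_S2_d hr.le, ip_comm (D.S2 r) (D.S1 r),
    D.ip_S1_S2 hr.le]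
  ring

lemma ip_S2_mm_w_tc1 (hr : D.R < r) : ip (D.S2 r) (mm (D.w r) (D.tc1 r)) =
    (D.X3 r - D.X1 r / D.al r) / r ^ 2 / r -
      2 * ((2 * D.TW r - D.al r * D.TW2 r - 3 / D.al r) / (r ^ 2) ^ 2) := by
  unfold tc1
  rw [mm_sub_right, mm_smul_right, mm_smul_right, ip_sub_right, ip_smul_right, ip_smul_right,
    D.ip_S2_mm_w_d hr.le, D.ip_S2_mm_w_S1 hr.le]
  ring

lemma tr_tc2 (hr : D.R < r) : tr3m (D.tc2 r) =
    -D.X3 r / r - 2 * ((D.TW r - 3 / D.al r) / r ^ 2) := by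
  unfold tc2
  rw [tr3m_sub, tr3m_smul, tr3m_smul, tr_dw, D.tr_S2 hr.le]
  ring

lemma ip_tc1_tc2 (hr : D.R < r) : ip (D.tc1 r) (D.tc2 r) =
    -D.X2 r / r ^ 2 - 2 * ((D.X1 r - D.X4 r / D.al r) / r ^ 2 / r) -
      2 * ((-D.X1 r + D.al r * D.X3 r) / r ^ 2 / r) +
      4 * ((6 - D.al r * D.TW r - D.TQ r / D.al r) / (r ^ 2) ^ 2) := by
  have h0 : 0 < r := D.hR.trans hr
  unfold tc1 tc2
  simp only [ip_sub_left, ip_sub_right, ip_smul_left, ip_smul_right]
  rw [ip_comm (D.d r) (D.S2 r), D.ip_S2_d hr.le, D.ip_S1_dw hr.le, D.ip_S1_S2 hr.le, ip_d_dw]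
  field_simp
  ring

lemma ip_tc1_w (hr : D.R < r) : ip (D.tc1 r) (D.w r) =
    D.X1 r / r - 2 * ((3 - D.al r * D.TW r) / r ^ 2) := by
  unfold tc1
  rw [ip_sub_left, ip_smul_left, ip_smul_left, D.ip_S1_w hr.le, ip_comm (D.d r), ip_w_d]
  ring

lemma S1_symm (r : ℝ) (a b : Fin 3) : D.S1 r a b = D.S1 r b a := by
  unfold S1; rw [D.s1_symm a b]

lemma S2_symm (r : ℝ) (a b : Fin 3) : D.S2 r a b = D.S2 r b a := by
  unfold S2; rw [D.s2_symm a b]

/-- the value of the quadratic part -/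
def quadv (r : ℝ) : ℝ :=
  let al := D.al r
  let p := D.p r
  let ald := deriv D.al r
  let pd := deriv D.p r
  let ν := 1 / p
  let u := (p - al) / r ^ 2
  let u' := (1 / p - 1 / al) / r ^ 2
  let fd := ald / r
  let fd' := -ald / al ^ 2 / r
  let c := pd / r - 2 * u
  let c' := -pd / p ^ 2 / r - 2 * u'
  let X1 := D.X1 r
  let X2 := D.X2 r
  let X3 := D.X3 r
  let X4 := D.X4 r
  let TW := D.TW r
  let TQ := D.TQ r
  let TW2 := D.TW2 r
  let sst := (6 - al * TW - TQ / al) / (r ^ 2) ^ 2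
  let sW := (3 - al * TW) / r ^ 2
  let stW := (TW2 - TW / al) / r ^ 2
  let trs := (TQ - 3 * al) / r ^ 2
  let trst := (TW - 3 / al) / r ^ 2
  let stWs := (2 * TW - al * TW2 - 3 / al) / (r ^ 2) ^ 2
  let stc' := (-X1 + al * X3) / r ^ 2 / r - 2 * sst
  let s'tc := (X1 - X4 / al) / r ^ 2 / r - 2 * sst
  let s'Wtc := (X3 - X1 / al) / r ^ 2 / r - 2 * stWs
  let trtc' := -X3 / r - 2 * trst
  let tctc' := -X2 / r ^ 2 - 2 * ((X1 - X4 / al) / r ^ 2 / r) -
      2 * ((-X1 + al * X3) / r ^ 2 / r) + 4 * sst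
  let tcW := X1 / r - 2 * sW
  let τ := ((n : ℝ) - 4) / al + 1 / p + TW
  let trC' := ((n : ℝ) - 4) * fd' + c' + trtc'
  let prCC := ((n : ℝ) - 4) * fd' * fd + c' * c + tctc'
  let prGC := fd * (((n : ℝ) - 4) / al) + ν * c + tcW
  r ^ 2 * (ν * prCC / 4 - ν * c * c' / 2 + ν * stc' + ν * s'tc / 2 + s'Wtc / 2 -
    u * ν * trC' / 2 - u' * prGC / 2 - u * u' * ν - u' * sW - u * ν * trst + (τ + ν) * sst -
    (trst * (trs * TW - sW) - sst * TW - stW * trs + 2 * stWs))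

end Data

/-- the quadratic part -/
theorem quad_val (D : Data n) {x : E n} (hx : D.R < len x) :
    -((1 / 2) * (U3 (D.G x) (D.E2 x) (D.E1 x) - (1 / 2) * T3 (D.G x) (D.E2 x) (D.E1 x))) =
      D.quadv (len x) := by
  have hx0 := len_pos_of hx.le
  have h := quad_ip (D.G_adm' hx0) (D.C1_adm' hx) (D.C2_adm' hx) (D.u1 (len x)) (D.u2 (len x))
    (D.S1 (len x)) (D.S2 (len x)) (D.w_symm _) (D.S1_symm _) (D.S2_symm _)
  have e1 : D.E1 x = D3 D.Q x (D.C1 x) (D.u1 (len x)) (D.S1 (len x)) := rfl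
  have e2 : D.E2 x = D3 D.Q x (D.C2 x) (D.u2 (len x)) (D.S2 (len x)) := rfl
  rw [e1, e2, h, D.pr_C1 hx (D.C2_adm' hx), D.pr_C1 hx (D.G_adm' hx0), D.trC2 hx, D.tr_G hx0,
    D.ip_S1_tc2 hx, D.ip_S2_tc1 hx, D.ip_S2_mm_w_tc1 hx, D.tr_tc2 hx, D.ip_tc1_tc2 hx,
    D.ip_tc1_w hx, ip_comm (D.S2 (len x)) (D.S1 (len x)), D.ip_S1_S2 hx.le, D.ip_S1_w hx.le,
    D.ip_S2_w hx.le, D.tr_S2 hx.le, D.tr_S1 hx.le, D.ip_S2_mm_S1_w hx.le]
  have e3 : D.u1 (len x) = (D.p (len x) - D.al (len x)) / len x ^ 2 := rfl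
  have e4 : D.u2 (len x) = (1 / D.p (len x) - 1 / D.al (len x)) / len x ^ 2 := rfl
  have e5 : D.df2 (len x) = -deriv D.al (len x) / D.al (len x) ^ 2 := rfl
  have e6 : D.dp2 (len x) = -deriv D.p (len x) / D.p (len x) ^ 2 := rfl
  have e7 : tr3m (D.w (len x)) = D.TW (len x) := rfl
  have e8 : D.cc1 (len x) = deriv D.p (len x) / len x - 2 * D.u1 (len x) := rfl
  have e9 : D.cc2 (len x) = D.dp2 (len x) / len x - 2 * D.u2 (len x) := rfl
  rw [e8, e9, e7, e3, e4, e5, e6]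
  unfold Data.quadv
  ring

end Vale.Agent.P366.T2
end
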